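import Vale.Agent.P042.UU.FinZ5

set_option autoImplicit false

/-!
P042, block [D]: top assembly of the power saving theorem.

`GW f P a q` is the (sieve weighted) normalised complete sum; it is a parameter here.
`St k R κ P N' G` is the list of the properties of the extremal state; it is a parameter here.
-/

namespace Vale.Agent.P042.H739

open Polynomial Finset Vale.Agent.P042.SS Vale.Agent.P042.TT Vale.Agent.P042.UU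

/-- the final theorem: power saving for every intersective polynomial -/
def Final6 : Prop :=
  ∀ h : ℤ[X], 2 ≤ h.natDegree → 0 < h.leadingCoeff → Intersective h →
    ∃ c C : ℝ, 0 < c ∧ 0 < C ∧ ∀ N : ℕ, 1 ≤ N → (rMax h N : ℝ) ≤ C * (N : ℝ) ^ (1 - c)

/-- the properties of the extremal weight that the last step needs -/
structure Base6 (f : ℤ[X]) (κ P : ℝ) (N' : ℕ) (G : ℤ → ℝ) : Prop where
  lo : Real.exp ((1 - κ) * P) ≤ N'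
  hi : (N' : ℝ) ≤ Real.exp P
  G0 : ∀ n, 0 ≤ G n
  supp : ∀ n, G n ≠ 0 → 1 ≤ n ∧ n ≤ N'
  sum : ∑ n ∈ Icc (1 : ℤ) N', G n = N'
  le : ∀ n, G n ≤ Real.exp (κ * P)
  df : ∀ n m : ℤ, G n ≠ 0 → G m ≠ 0 → ∀ x : ℕ, 1 ≤ x → n - m = f.eval (x : ℤ) → n = m

/-- the type of the state predicate -/
abbrev StTy := ℕ → ℕ → ℤ[X] → ℝ → ℝ → ℕ → (ℤ → ℝ) → Prop

/-- the type of the weighted complete sums -/
abbrev GwTy := ℤ[X] → ℝ → ℤ → ℕ → ℂ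

/-- from a dense set without differences to an extremal state of quality `κ` -/
def STATE6 (St : StTy) : Prop :=
  ∀ (h : ℤ[X]) (lam0 : ℕ → ℕ) (r : ℕ → ℤ) (Hh : ℕ → ℤ[X]) (R : ℕ),
    AuxData h lam0 r Hh R → 2 ≤ h.natDegree → 0 < h.leadingCoeff →
  ∀ κ : ℝ, 0 < κ → κ ≤ 1 / 8 → ∃ c : ℝ, 0 < c ∧ ∃ P0 : ℝ, ∀ P : ℝ, P0 ≤ P →
    ∀ N : ℕ, 1 ≤ N → Real.log N = P → ∀ A0 : Finset ℤ, A0 ⊆ Icc (1 : ℤ) N → DiffFree h A0 →
      Real.exp (-(c * P)) * N ≤ (A0.card : ℝ) →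
    ∃ (d N' : ℕ) (G : ℤ → ℝ), 1 ≤ d ∧ (d : ℝ) ≤ Real.exp (κ * P) ∧
      Base6 (Hh d) κ P N' G ∧ St h.natDegree R (Hh d) κ P N' G

/-- the exponential sum of `G` on `[1, N']` -/
noncomputable def Fs (G : ℤ → ℝ) (N' : ℕ) (θ : ℝ) : ℂ :=
  ∑ n ∈ Icc (1 : ℤ) N', (G n : ℂ) * e (-((n : ℝ) * θ))

/-- the circle method for two windows -/
def AN6 (GW : GwTy) : Prop :=
  ∀ k : ℕ, 2 ≤ k → ∃ th0 : ℝ, 0 < th0 ∧ ∀ R : ℕ, 1 ≤ R → ∀ thQ : ℝ, 0 < thQ → thQ ≤ th0 →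
  ∃ c1 κ1 : ℝ, 0 < c1 ∧ 0 < κ1 ∧ ∃ P0 : ℝ, ∀ P : ℝ, P0 ≤ P →
  ∀ (f : ℤ[X]) (N' H : ℕ) (G : ℤ → ℝ), f.natDegree = k → 0 < f.leadingCoeff →
    (∀ g : ℤ, (∀ j : ℕ, 1 ≤ j → g ∣ f.coeff j) → g ∣ (R : ℤ)) →
    (∀ j : ℕ, |(f.coeff j : ℝ)| ≤ Real.exp (κ1 * P)) →
    Real.exp ((1 - κ1) * P) ≤ N' → (N' : ℝ) ≤ Real.exp P →
    8 * H ≤ N' → N' ≤ 16 * H →
    (∀ n, 0 ≤ G n) → (∀ n, G n ≠ 0 → 1 ≤ n ∧ n ≤ N') →
    (∀ n m : ℤ, G n ≠ 0 → G m ≠ 0 → ∀ x : ℕ, 1 ≤ x → n - m = f.eval (x : ℤ) → n = m) →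
    ‖∑ q ∈ Icc 1 ⌊Real.exp (thQ * P)⌋₊, ∑ a ∈ (range q).filter (Nat.Coprime q),
      GW f P a q * Bil G N' H ((a : ℝ) / q)‖ ≤
      Real.exp (-(c1 * P)) * (H : ℝ) ^ 2 * ∑ n ∈ Icc (1 : ℤ) N', G n ^ 2

/-- the two tents identity (359) -/
def TENT6 : Prop :=
  ∀ (N' H h0 : ℕ) (z : ℤ) (G1 G2 : ℤ → ℝ), 1 ≤ h0 → 2 * h0 ≤ H → 0 ≤ z →
    z + 3 * H + 2 * h0 ≤ N' →
    (∀ n, G1 n ≠ 0 → z + 3 * H + h0 < n ∧ n ≤ z + 3 * H + 2 * h0) →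
    (∀ n, G2 n ≠ 0 → z < n ∧ n ≤ z + h0) →
    ∀ θ : ℝ, Bil (fun n => G1 n + G2 n) N' H θ + Bil (fun n => G1 n + G2 n) N' (H + h0) θ =
      ((2 * H - 2 * h0 : ℝ) : ℂ) * (Fs G1 N' θ * (starRingEnd ℂ) (Fs G2 N' θ))

/-- the circle method for one pair of windows -/
def AN6P (GW : GwTy) : Prop :=
  ∀ k : ℕ, 2 ≤ k → ∃ th0 : ℝ, 0 < th0 ∧ ∀ R : ℕ, 1 ≤ R → ∀ thQ : ℝ, 0 < thQ → thQ ≤ th0 →
  ∃ c1 κ1 : ℝ, 0 < c1 ∧ 0 < κ1 ∧ ∃ P0 : ℝ, ∀ P : ℝ, P0 ≤ P →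
  ∀ (f : ℤ[X]) (N' H h0 : ℕ) (z : ℤ) (G1 G2 : ℤ → ℝ), f.natDegree = k → 0 < f.leadingCoeff →
    (∀ g : ℤ, (∀ j : ℕ, 1 ≤ j → g ∣ f.coeff j) → g ∣ (R : ℤ)) →
    (∀ j : ℕ, |(f.coeff j : ℝ)| ≤ Real.exp (κ1 * P)) →
    Real.exp ((1 - κ1) * P) ≤ N' → (N' : ℝ) ≤ Real.exp P →
    8 * (H + h0) ≤ N' → N' ≤ 16 * H → 1 ≤ h0 → 2 * h0 ≤ H → 0 ≤ z →
    z + 3 * H + 2 * h0 ≤ N' →
    (∀ n, 0 ≤ G1 n) → (∀ n, 0 ≤ G2 n) →
    (∀ n, G1 n ≠ 0 → z + 3 * H + h0 < n ∧ n ≤ z + 3 * H + 2 * h0) →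
    (∀ n, G2 n ≠ 0 → z < n ∧ n ≤ z + h0) →
    (∀ n m : ℤ, G1 n ≠ 0 → G2 m ≠ 0 → ∀ x : ℕ, 1 ≤ x → n - m ≠ f.eval (x : ℤ)) →
    (∀ n m : ℤ, G1 n ≠ 0 → G1 m ≠ 0 → ∀ x : ℕ, 1 ≤ x → n - m = f.eval (x : ℤ) → n = m) →
    (∀ n m : ℤ, G2 n ≠ 0 → G2 m ≠ 0 → ∀ x : ℕ, 1 ≤ x → n - m = f.eval (x : ℤ) → n = m) →
    (∀ n m : ℤ, G2 n ≠ 0 → G1 m ≠ 0 → ∀ x : ℕ, 1 ≤ x → n - m ≠ f.eval (x : ℤ)) →
    ‖∑ q ∈ Icc 1 ⌊Real.exp (thQ * P)⌋₊, ∑ a ∈ (range q).filter (Nat.Coprime q),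
      GW f P a q * (Fs G1 N' ((a : ℝ) / q) * (starRingEnd ℂ) (Fs G2 N' ((a : ℝ) / q)))‖ ≤
      Real.exp (-(c1 * P)) * N' * (∑ n ∈ Icc (1 : ℤ) N', G1 n ^ 2 + ∑ n ∈ Icc (1 : ℤ) N', G2 n ^ 2)

/-- the lower bound of the local part: for one choice of windows and classes -/
def LOWER6 (GW : GwTy) (St : StTy) : Prop :=
  ∀ k R : ℕ, 2 ≤ k → 1 ≤ R → ∃ q0 : ℕ, 1 ≤ q0 ∧ ∀ thQ κ0 : ℝ, 0 < thQ → 0 < κ0 →
  ∃ κ : ℝ, 0 < κ ∧ κ ≤ κ0 ∧ ∃ P0 : ℝ, ∀ P : ℝ, P0 ≤ P →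
  ∀ (f : ℤ[X]) (N' : ℕ) (G : ℤ → ℝ), f.natDegree = k → 0 < f.leadingCoeff →
    (∀ g : ℤ, (∀ j : ℕ, 1 ≤ j → g ∣ f.coeff j) → g ∣ (R : ℤ)) →
    Base6 f κ P N' G → St k R f κ P N' G →
  ∃ (z0 H h0 : ℕ) (z : ℤ) (G1 G2 : ℤ → ℝ), z0 ≤ q0 ∧
    8 * (H + h0) ≤ N' ∧ N' ≤ 16 * H ∧ 1 ≤ h0 ∧ 2 * h0 ≤ H ∧ 0 ≤ z ∧
    z + 3 * H + 2 * h0 ≤ N' ∧
    (∀ n, 0 ≤ G1 n) ∧ (∀ n, 0 ≤ G2 n) ∧ (∀ n, G1 n ≤ G n) ∧ (∀ n, G2 n ≤ G n) ∧
    (∀ n, G1 n ≠ 0 → z + 3 * H + h0 < n ∧ n ≤ z + 3 * H + 2 * h0) ∧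
    (∀ n, G2 n ≠ 0 → z < n ∧ n ≤ z + h0) ∧
    Real.exp (-(κ0 * P)) * (N' : ℝ) ^ 2 ≤
      ‖∑ q ∈ Icc 1 ⌊Real.exp (thQ * P)⌋₊, ∑ a ∈ (range q).filter (Nat.Coprime q),
        GW (f.comp (C (z0 : ℤ) + C (q0 : ℤ) * X)) P a q *
          (Fs G1 N' ((a : ℝ) / q) * (starRingEnd ℂ) (Fs G2 N' ((a : ℝ) / q)))‖

/-! ### the polynomial `f(z0 + q0 X)` -/

theorem comp_coeff (f : ℤ[X]) (r d : ℤ) (j : ℕ) :
    (f.comp (C r + C d * X)).coeff j = (taylor r f).coeff j * d ^ j := by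
  have h2 : f.comp (C r + C d * X) = (taylor r f).comp (C d * X) := by
    rw [taylor_apply, comp_assoc]
    congr 1
    simp only [add_comp, X_comp, C_comp]
    ring
  rw [h2, comp_C_mul_X_coeff]

theorem comp_natDegree (f : ℤ[X]) (z0 q0 : ℕ) (hq : 1 ≤ q0) :
    (f.comp (C (z0 : ℤ) + C (q0 : ℤ) * X)).natDegree = f.natDegree := by
  rw [natDegree_comp, natDegree_lin _ _ hq, mul_one]

theorem comp_lead (f : ℤ[X]) (z0 q0 : ℕ) (hq : 1 ≤ q0) (hpos : 0 < f.leadingCoeff) :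
    0 < (f.comp (C (z0 : ℤ) + C (q0 : ℤ) * X)).leadingCoeff := by
  rw [leadingCoeff_comp (by rw [natDegree_lin _ _ hq]; exact one_ne_zero),
    leadingCoeff_lin _ _ hq]
  have h1 : (0 : ℤ) < q0 := by exact_mod_cast hq
  positivity

theorem comp_content (f : ℤ[X]) (z0 q0 R : ℕ)
    (hc : ∀ g : ℤ, (∀ j : ℕ, 1 ≤ j → g ∣ f.coeff j) → g ∣ (R : ℤ)) :
    ∀ g : ℤ, (∀ j : ℕ, 1 ≤ j → g ∣ (f.comp (C (z0 : ℤ) + C (q0 : ℤ) * X)).coeff j) →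
      g ∣ ((R * q0 ^ f.natDegree : ℕ) : ℤ) := by
  intro g hg
  -- `g` divides `q0 ^ k` times every coefficient of the Taylor polynomial of index `≥ 1`
  have h1 : ∀ j : ℕ, 1 ≤ j → g ∣ (taylor (z0 : ℤ) f).coeff j * (q0 : ℤ) ^ f.natDegree := by
    intro j hj
    by_cases hjk : j ≤ f.natDegree
    · have h2 := hg j hj
      rw [comp_coeff] at h2
      have h3 : (q0 : ℤ) ^ f.natDegree = (q0 : ℤ) ^ j * (q0 : ℤ) ^ (f.natDegree - j) := by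
        rw [← pow_add]
        congr 1
        omega
      rw [h3, ← mul_assoc]
      exact Dvd.dvd.mul_right h2 _
    · rw [coeff_eq_zero_of_natDegree_lt (by rw [natDegree_taylor]; omega), zero_mul]
      exact dvd_zero _
  -- back to `f`
  have h2 : ∀ j : ℕ, 1 ≤ j → g ∣ (q0 : ℤ) ^ f.natDegree * f.coeff j := by
    intro j hj
    have h3 : f = taylor (-(z0 : ℤ)) (taylor (z0 : ℤ) f) := by
      rw [taylor_taylor]
      simp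
    have h4 : f.coeff j = ∑ i ∈ Finset.range (f.natDegree + 1),
        (((i.choose j : ℕ) : ℤ) * (taylor (z0 : ℤ) f).coeff i * (-(z0 : ℤ)) ^ (i - j)) := by
      conv_lhs => rw [h3]
      rw [taylor_coeff, hasseDeriv_apply,
        Polynomial.sum_over_range _ (by intro n; simp only [mul_zero, monomial_zero_right]),
        eval_finsetSum, natDegree_taylor]
      exact Finset.sum_congr rfl fun i _ => by rw [eval_monomial]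
    rw [h4, Finset.mul_sum]
    refine Finset.dvd_sum fun i _ => ?_
    by_cases hij : j ≤ i
    · have h5 := h1 i (by omega)
      have h6 : (q0 : ℤ) ^ f.natDegree *
          (((i.choose j : ℕ) : ℤ) * (taylor (z0 : ℤ) f).coeff i * (-(z0 : ℤ)) ^ (i - j)) =
          ((taylor (z0 : ℤ) f).coeff i * (q0 : ℤ) ^ f.natDegree) *
            (((i.choose j : ℕ) : ℤ) * (-(z0 : ℤ)) ^ (i - j)) := by ring
      rw [h6]
      exact Dvd.dvd.mul_right h5 _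
    · rw [Nat.choose_eq_zero_of_lt (by omega)]
      simp
  -- gcd argument: `g / gcd(g, q0 ^ k)` divides every coefficient
  obtain ⟨Q, hQ⟩ : ∃ Q : ℤ, Q = (q0 : ℤ) ^ f.natDegree := ⟨_, rfl⟩
  rw [← hQ] at h2
  push_cast
  rw [← hQ]
  rcases eq_or_ne g 0 with h0 | h0
  · subst h0
    by_cases hQ0 : Q = 0
    · rw [hQ0, mul_zero]
    · have h3 : ∀ j : ℕ, 1 ≤ j → (0 : ℤ) ∣ f.coeff j := by
        intro j hj
        have h4 := h2 j hj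
        rw [zero_dvd_iff] at h4 ⊢
        exact (mul_eq_zero.1 h4).resolve_left hQ0
      have h5 := hc 0 h3
      rw [zero_dvd_iff] at h5 ⊢
      rw [h5, zero_mul]
  · obtain ⟨m, hm⟩ : ∃ m : ℤ, m = ((Int.gcd g Q : ℕ) : ℤ) := ⟨_, rfl⟩
    have hm0 : m ≠ 0 := by
      rw [hm]
      intro h3
      rw [Int.natCast_eq_zero, Int.gcd_eq_zero_iff] at h3
      exact h0 h3.1
    obtain ⟨g', hg'⟩ : m ∣ g := hm ▸ Int.gcd_dvd_left ..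
    obtain ⟨Q', hQ'⟩ : m ∣ Q := hm ▸ Int.gcd_dvd_right ..
    have hcop : IsCoprime g' Q' := by
      rw [Int.isCoprime_iff_gcd_eq_one]
      have h3 : Int.gcd (m * g') (m * Q') = m.natAbs * Int.gcd g' Q' := Int.gcd_mul_left ..
      rw [← hg', ← hQ'] at h3
      have h4 : m.natAbs = Int.gcd g Q := by rw [hm, Int.natAbs_natCast]
      rw [h4] at h3
      have h5 : 0 < Int.gcd g Q := by
        rw [← h4]
        exact Int.natAbs_pos.2 hm0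
      have h6 : Int.gcd g Q * 1 = Int.gcd g Q * Int.gcd g' Q' := by rw [mul_one]; exact h3
      exact (Nat.eq_of_mul_eq_mul_left h5 h6).symm
    have h3 : ∀ j : ℕ, 1 ≤ j → g' ∣ f.coeff j := by
      intro j hj
      have h4 := h2 j hj
      rw [hg', hQ', mul_assoc] at h4
      exact hcop.dvd_of_dvd_mul_left ((mul_dvd_mul_iff_left hm0).1 h4)
    have h4 := hc g' h3
    rw [hg', hQ']
    calc m * g' ∣ m * (R : ℤ) := mul_dvd_mul_left m h4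
      _ ∣ (R : ℤ) * (m * Q') := ⟨Q', by ring⟩

theorem comp_bound (f : ℤ[X]) (k z0 q0 : ℕ) (B : ℝ) (hk : f.natDegree = k) (hz : z0 ≤ q0)
    (hq : 1 ≤ q0) (hB0 : 0 ≤ B) (hB : ∀ j : ℕ, |(f.coeff j : ℝ)| ≤ B) :
    ∀ j : ℕ, |((f.comp (C (z0 : ℤ) + C (q0 : ℤ) * X)).coeff j : ℝ)| ≤
      ((k + 1 : ℕ) : ℝ) * ((2 * q0 : ℕ) : ℝ) ^ k * B := by
  intro j
  rw [comp_coeff, taylor_coeff, hasseDeriv_apply,
    Polynomial.sum_over_range _ (by intro n; simp only [mul_zero, monomial_zero_right]),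
    eval_finsetSum, Finset.sum_mul, hk]
  push_cast
  refine (Finset.abs_sum_le_sum_abs _ _).trans ?_
  have hq1 : (1 : ℝ) ≤ q0 := by exact_mod_cast hq
  have hzr : (z0 : ℝ) ≤ q0 := by exact_mod_cast hz
  have h1 : ∀ i ∈ Finset.range (k + 1),
      |((eval (z0 : ℤ) (monomial (i - j) (((i.choose j : ℕ) : ℤ) * f.coeff i)) : ℤ) : ℝ) *
        (q0 : ℝ) ^ j| ≤ (2 * (q0 : ℝ)) ^ k * B := by
    intro i hi
    rw [Finset.mem_range] at hi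
    rw [eval_monomial]
    push_cast
    by_cases hij : j ≤ i
    · rw [abs_mul, abs_mul, abs_mul, abs_pow, abs_pow, Nat.abs_cast, Nat.abs_cast, Nat.abs_cast]
      have h5 : ((i.choose j : ℕ) : ℝ) ≤ 2 ^ k := by
        have h6 : i.choose j ≤ 2 ^ i := Nat.choose_le_two_pow i j
        have h7 : 2 ^ i ≤ 2 ^ k := Nat.pow_le_pow_right (by norm_num) (by omega)
        exact_mod_cast h6.trans h7
      have h6 : (z0 : ℝ) ^ (i - j) * (q0 : ℝ) ^ j ≤ (q0 : ℝ) ^ k := by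
        calc (z0 : ℝ) ^ (i - j) * (q0 : ℝ) ^ j ≤ (q0 : ℝ) ^ (i - j) * (q0 : ℝ) ^ j := by gcongr
          _ = (q0 : ℝ) ^ i := by rw [← pow_add, Nat.sub_add_cancel hij]
          _ ≤ (q0 : ℝ) ^ k := pow_le_pow_right₀ hq1 (by omega)
      calc ((i.choose j : ℕ) : ℝ) * |(f.coeff i : ℝ)| * (z0 : ℝ) ^ (i - j) * (q0 : ℝ) ^ j
          = (((i.choose j : ℕ) : ℝ) * |(f.coeff i : ℝ)|) *
            ((z0 : ℝ) ^ (i - j) * (q0 : ℝ) ^ j) := by ring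
        _ ≤ (2 ^ k * B) * (q0 : ℝ) ^ k := by
            gcongr
            exact hB i
        _ = (2 * (q0 : ℝ)) ^ k * B := by rw [mul_pow]; ring
    · rw [Nat.choose_eq_zero_of_lt (by omega)]
      simp only [Nat.cast_zero, zero_mul, abs_zero]
      positivity
  refine (Finset.sum_le_sum h1).trans ?_
  rw [Finset.sum_const, card_range, nsmul_eq_mul]
  push_cast
  linarith

/-! ### the assembly -/

/-- from the form `Bil` to a pair of windows -/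
theorem an6p_of {GW : GwTy} (hAN : AN6 GW) (hTent : TENT6) : AN6P GW := by
  intro k hk
  obtain ⟨th0, hth0, hAN1⟩ := hAN k hk
  refine ⟨th0, hth0, fun R hR thQ hthQ hthQ0 => ?_⟩
  obtain ⟨c1, κ1, hc1, hκ1, P0, hAN2⟩ := hAN1 R hR thQ hthQ hthQ0
  refine ⟨c1, κ1, hc1, hκ1, P0, fun P hP f N' H h0 z G1 G2 hfk hlead hcont hB hlo hhi h8 h16 hh0
    hh hz hzN hG1 hG2 hs1 hs2 hd12 hd11 hd22 hd21 => ?_⟩
  obtain ⟨Q, hQ⟩ : ∃ Q : ℕ, Q = ⌊Real.exp (thQ * P)⌋₊ := ⟨_, rfl⟩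
  have hAN3 := hAN2 P hP
  rw [← hQ] at hAN3 ⊢
  obtain ⟨G3, hG3⟩ : ∃ G3 : ℤ → ℝ, G3 = fun n => G1 n + G2 n := ⟨_, rfl⟩
  have hdisj : ∀ n, G1 n = 0 ∨ G2 n = 0 := by
    intro n
    by_contra hcon
    rw [not_or] at hcon
    have h1 := hs1 n hcon.1
    have h2 := hs2 n hcon.2
    omega
  have hG30 : ∀ n, 0 ≤ G3 n := fun n => by
    rw [hG3]
    exact add_nonneg (hG1 n) (hG2 n)
  have hG3ne : ∀ n, G3 n ≠ 0 → G1 n ≠ 0 ∨ G2 n ≠ 0 := fun n hn => by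
    by_contra hcon
    rw [not_or, not_not, not_not] at hcon
    apply hn
    rw [hG3]
    simp only [hcon.1, hcon.2, add_zero]
  have hG3s : ∀ n, G3 n ≠ 0 → 1 ≤ n ∧ n ≤ N' := fun n hn => by
    rcases hG3ne n hn with h | h
    · have := hs1 n h
      omega
    · have := hs2 n h
      omega
  have hG3df : ∀ n m : ℤ, G3 n ≠ 0 → G3 m ≠ 0 → ∀ x : ℕ, 1 ≤ x →
      n - m = f.eval (x : ℤ) → n = m := by
    intro n m hn hm x hx he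
    rcases hG3ne n hn with h | h <;> rcases hG3ne m hm with h' | h'
    · exact hd11 n m h h' x hx he
    · exact absurd he (hd12 n m h h' x hx)
    · exact absurd he (hd21 n m h h' x hx)
    · exact hd22 n m h h' x hx he
  have h8a : 8 * H ≤ N' := by omega
  have h16b : N' ≤ 16 * (H + h0) := by omega
  have hA1 := hAN3 f N' H G3 hfk hlead hcont hB hlo hhi h8a h16 hG30 hG3s hG3df
  have hA2 := hAN3 f N' (H + h0) G3 hfk hlead hcont hB hlo hhi h8 h16b hG30 hG3s hG3df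
  -- the sum of the two forms
  obtain ⟨T, hT⟩ : ∃ T : ℂ, T = ∑ q ∈ Icc 1 Q, ∑ a ∈ (range q).filter (Nat.Coprime q),
      GW f P a q * (Fs G1 N' ((a : ℝ) / q) * (starRingEnd ℂ) (Fs G2 N' ((a : ℝ) / q))) := ⟨_, rfl⟩
  rw [← hT]
  have hsumT : ∑ q ∈ Icc 1 Q, ∑ a ∈ (range q).filter (Nat.Coprime q),
        GW f P a q * Bil G3 N' H ((a : ℝ) / q) +
      ∑ q ∈ Icc 1 Q, ∑ a ∈ (range q).filter (Nat.Coprime q),
        GW f P a q * Bil G3 N' (H + h0) ((a : ℝ) / q) = ((2 * H - 2 * h0 : ℝ) : ℂ) * T := by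
    rw [hT, ← Finset.sum_add_distrib, Finset.mul_sum]
    refine Finset.sum_congr rfl fun q _ => ?_
    rw [← Finset.sum_add_distrib, Finset.mul_sum]
    refine Finset.sum_congr rfl fun a _ => ?_
    have h1 := hTent N' H h0 z G1 G2 hh0 hh hz hzN hs1 hs2 ((a : ℝ) / q)
    rw [← mul_add, hG3, h1]
    ring
  have hsq : ∑ n ∈ Icc (1 : ℤ) N', G3 n ^ 2 =
      ∑ n ∈ Icc (1 : ℤ) N', G1 n ^ 2 + ∑ n ∈ Icc (1 : ℤ) N', G2 n ^ 2 := by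
    rw [← Finset.sum_add_distrib]
    refine Finset.sum_congr rfl fun n _ => ?_
    rw [hG3]
    rcases hdisj n with h | h <;> simp [h]
  rw [← hsq]
  have hHr : (2 : ℝ) * h0 ≤ H := by exact_mod_cast hh
  have hh0r : (1 : ℝ) ≤ h0 := by exact_mod_cast hh0
  have h8r : 8 * ((H : ℝ) + h0) ≤ N' := by exact_mod_cast h8
  have hHpos : (0 : ℝ) < H := by linarith
  have hS0 : 0 ≤ ∑ n ∈ Icc (1 : ℤ) N', G3 n ^ 2 := Finset.sum_nonneg fun n _ => sq_nonneg _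
  have hc0 : (0 : ℝ) ≤ 2 * H - 2 * h0 := by linarith
  have hnorm : (2 * H - 2 * h0 : ℝ) * ‖T‖ ≤
      Real.exp (-(c1 * P)) * ((H : ℝ) ^ 2 + ((H : ℝ) + h0) ^ 2) *
        ∑ n ∈ Icc (1 : ℤ) N', G3 n ^ 2 := by
    have h1 : ‖((2 * H - 2 * h0 : ℝ) : ℂ) * T‖ = (2 * H - 2 * h0 : ℝ) * ‖T‖ := by
      rw [norm_mul, Complex.norm_real, Real.norm_of_nonneg hc0]
    rw [← h1, ← hsumT]
    refine (norm_add_le _ _).trans ?_
    have h2 := add_le_add hA1 hA2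
    push_cast at h2
    refine h2.trans (le_of_eq ?_)
    ring
  have hE := Real.exp_pos (-(c1 * P))
  have h1 : (H : ℝ) * ‖T‖ ≤ (2 * H - 2 * h0 : ℝ) * ‖T‖ :=
    mul_le_mul_of_nonneg_right (by linarith) (norm_nonneg _)
  have h2 : (H : ℝ) ^ 2 + ((H : ℝ) + h0) ^ 2 ≤ 4 * (H : ℝ) ^ 2 := by nlinarith
  have h3 : (H : ℝ) * ‖T‖ ≤
      (H : ℝ) * (Real.exp (-(c1 * P)) * (4 * H) * ∑ n ∈ Icc (1 : ℤ) N', G3 n ^ 2) := by
    calc (H : ℝ) * ‖T‖ ≤ Real.exp (-(c1 * P)) * ((H : ℝ) ^ 2 + ((H : ℝ) + h0) ^ 2) *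
          ∑ n ∈ Icc (1 : ℤ) N', G3 n ^ 2 := h1.trans hnorm
      _ ≤ Real.exp (-(c1 * P)) * (4 * (H : ℝ) ^ 2) * ∑ n ∈ Icc (1 : ℤ) N', G3 n ^ 2 := by gcongr
      _ = _ := by ring
  refine (le_of_mul_le_mul_left h3 hHpos).trans ?_
  have h6 : 4 * (H : ℝ) ≤ N' := by linarith
  gcongr

/-- the contradiction, for one state -/
theorem last_step {GW : GwTy} {k R' q0 : ℕ} (hq0 : 1 ≤ q0)
    {f : ℤ[X]} {κ κ0 κ1 c1 thQ B P : ℝ} {N' : ℕ} {G : ℤ → ℝ} (hfk : f.natDegree = k)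
    (hlead : 0 < f.leadingCoeff)
    (hcont : ∀ g : ℤ, (∀ j : ℕ, 1 ≤ j → g ∣ f.coeff j) → g ∣ (R' : ℤ))
    (hB0 : 0 ≤ B) (hB : ∀ j : ℕ, |(f.coeff j : ℝ)| ≤ B)
    (hbase : Base6 f κ P N' G) (hP1 : 1 ≤ P) (hκ0 : κ ≤ κ0) (hκ1 : κ ≤ κ1)
    (hPc : Real.log 8 < (c1 - 2 * κ0) * P)
    (hBP : ((k + 1 : ℕ) : ℝ) * ((2 * q0 : ℕ) : ℝ) ^ k * B ≤ Real.exp (κ1 * P))
    (hAN : ∀ (f : ℤ[X]) (N' H h0 : ℕ) (z : ℤ) (G1 G2 : ℤ → ℝ),
      f.natDegree = k → 0 < f.leadingCoeff →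
      (∀ g : ℤ, (∀ j : ℕ, 1 ≤ j → g ∣ f.coeff j) → g ∣ ((R' * q0 ^ k : ℕ) : ℤ)) →
      (∀ j : ℕ, |(f.coeff j : ℝ)| ≤ Real.exp (κ1 * P)) →
      Real.exp ((1 - κ1) * P) ≤ N' → (N' : ℝ) ≤ Real.exp P →
      8 * (H + h0) ≤ N' → N' ≤ 16 * H → 1 ≤ h0 → 2 * h0 ≤ H → 0 ≤ z →
      z + 3 * H + 2 * h0 ≤ N' →
      (∀ n, 0 ≤ G1 n) → (∀ n, 0 ≤ G2 n) →
      (∀ n, G1 n ≠ 0 → z + 3 * H + h0 < n ∧ n ≤ z + 3 * H + 2 * h0) →
      (∀ n, G2 n ≠ 0 → z < n ∧ n ≤ z + h0) →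
      (∀ n m : ℤ, G1 n ≠ 0 → G2 m ≠ 0 → ∀ x : ℕ, 1 ≤ x → n - m ≠ f.eval (x : ℤ)) →
      (∀ n m : ℤ, G1 n ≠ 0 → G1 m ≠ 0 → ∀ x : ℕ, 1 ≤ x → n - m = f.eval (x : ℤ) → n = m) →
      (∀ n m : ℤ, G2 n ≠ 0 → G2 m ≠ 0 → ∀ x : ℕ, 1 ≤ x → n - m = f.eval (x : ℤ) → n = m) →
      (∀ n m : ℤ, G2 n ≠ 0 → G1 m ≠ 0 → ∀ x : ℕ, 1 ≤ x → n - m ≠ f.eval (x : ℤ)) →
      ‖∑ q ∈ Icc 1 ⌊Real.exp (thQ * P)⌋₊, ∑ a ∈ (range q).filter (Nat.Coprime q),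
        GW f P a q * (Fs G1 N' ((a : ℝ) / q) * (starRingEnd ℂ) (Fs G2 N' ((a : ℝ) / q)))‖ ≤
        Real.exp (-(c1 * P)) * N' *
          (∑ n ∈ Icc (1 : ℤ) N', G1 n ^ 2 + ∑ n ∈ Icc (1 : ℤ) N', G2 n ^ 2))
    {z0 H h0 : ℕ} {z : ℤ} {G1 G2 : ℤ → ℝ} (hz0 : z0 ≤ q0) (h8 : 8 * (H + h0) ≤ N')
    (h16 : N' ≤ 16 * H) (hh0 : 1 ≤ h0) (hh : 2 * h0 ≤ H) (hz : 0 ≤ z)
    (hzN : z + 3 * H + 2 * h0 ≤ N')
    (hG1 : ∀ n, 0 ≤ G1 n) (hG2 : ∀ n, 0 ≤ G2 n) (hG1G : ∀ n, G1 n ≤ G n)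
    (hG2G : ∀ n, G2 n ≤ G n)
    (hs1 : ∀ n, G1 n ≠ 0 → z + 3 * H + h0 < n ∧ n ≤ z + 3 * H + 2 * h0)
    (hs2 : ∀ n, G2 n ≠ 0 → z < n ∧ n ≤ z + h0)
    (hlow : Real.exp (-(κ0 * P)) * (N' : ℝ) ^ 2 ≤
      ‖∑ q ∈ Icc 1 ⌊Real.exp (thQ * P)⌋₊, ∑ a ∈ (range q).filter (Nat.Coprime q),
        GW (f.comp (C (z0 : ℤ) + C (q0 : ℤ) * X)) P a q *
          (Fs G1 N' ((a : ℝ) / q) * (starRingEnd ℂ) (Fs G2 N' ((a : ℝ) / q)))‖) : False := by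
  obtain ⟨g, hg⟩ : ∃ g : ℤ[X], g = f.comp (C (z0 : ℤ) + C (q0 : ℤ) * X) := ⟨_, rfl⟩
  rw [← hg] at hlow
  have hgdeg : g.natDegree = k := by rw [hg, comp_natDegree f z0 q0 hq0, hfk]
  have hglead : 0 < g.leadingCoeff := hg ▸ comp_lead f z0 q0 hq0 hlead
  have hgcont : ∀ g' : ℤ, (∀ j : ℕ, 1 ≤ j → g' ∣ g.coeff j) → g' ∣ ((R' * q0 ^ k : ℕ) : ℤ) := by
    rw [hg, ← hfk]
    exact comp_content f z0 q0 R' hcont
  have hgB : ∀ j : ℕ, |(g.coeff j : ℝ)| ≤ Real.exp (κ1 * P) := fun j => by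
    rw [hg]
    exact (comp_bound f k z0 q0 B hfk hz0 hq0 hB0 hB j).trans hBP
  have hN'lo : Real.exp ((1 - κ1) * P) ≤ N' :=
    le_trans (Real.exp_le_exp.2 (mul_le_mul_of_nonneg_right (by linarith) (by linarith))) hbase.lo
  have hN'0 : (0 : ℝ) < N' := lt_of_lt_of_le (Real.exp_pos _) hbase.lo
  have hne1 : ∀ n, G1 n ≠ 0 → G n ≠ 0 := fun n hn h0 => hn (le_antisymm (h0 ▸ hG1G n) (hG1 n))
  have hne2 : ∀ n, G2 n ≠ 0 → G n ≠ 0 := fun n hn h0 => hn (le_antisymm (h0 ▸ hG2G n) (hG2 n))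
  have hdf : ∀ n m : ℤ, G n ≠ 0 → G m ≠ 0 → ∀ x : ℕ, 1 ≤ x →
      n - m = g.eval (x : ℤ) → n = m := by
    intro n m hn hm x hx he
    refine hbase.df n m hn hm (z0 + q0 * x) ?_ ?_
    · have : 1 ≤ q0 * x := Nat.mul_pos hq0 hx
      omega
    · rw [he, hg, eval_comp]
      congr 1
      simp
  have hA := hAN g N' H h0 z G1 G2 hgdeg hglead hgcont hgB hN'lo hbase.hi h8 h16 hh0 hh hz hzN
    hG1 hG2 hs1 hs2
    (fun n m hn hm x hx he => by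
      have h1 := hdf n m (hne1 n hn) (hne2 m hm) x hx he
      have h2 := hs1 n hn
      have h3 := hs2 m hm
      omega)
    (fun n m hn hm => hdf n m (hne1 n hn) (hne1 m hm))
    (fun n m hn hm => hdf n m (hne2 n hn) (hne2 m hm))
    (fun n m hn hm x hx he => by
      have h1 := hdf n m (hne2 n hn) (hne1 m hm) x hx he
      have h2 := hs2 n hn
      have h3 := hs1 m hm
      omega)
  have hsq : ∀ G' : ℤ → ℝ, (∀ n, 0 ≤ G' n) → (∀ n, G' n ≤ G n) →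
      ∑ n ∈ Icc (1 : ℤ) N', G' n ^ 2 ≤ Real.exp (κ * P) * N' := by
    intro G' h0 hle
    rw [← hbase.sum, mul_sum]
    refine sum_le_sum fun n _ => ?_
    rw [sq]
    exact mul_le_mul ((hle n).trans (hbase.le n)) (hle n) (h0 n) (Real.exp_pos _).le
  have hE := Real.exp_pos (-(c1 * P))
  have h5 := hlow.trans (hA.trans (mul_le_mul_of_nonneg_left
    (add_le_add (hsq G1 hG1 hG1G) (hsq G2 hG2 hG2G)) (by positivity)))
  have h6 : Real.exp (-(κ0 * P)) * (N' : ℝ) ^ 2 ≤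
      (2 * Real.exp (-(c1 * P)) * Real.exp (κ * P)) * (N' : ℝ) ^ 2 :=
    h5.trans (le_of_eq (by ring))
  have h7 : Real.exp (-(κ0 * P)) ≤ 2 * Real.exp (-(c1 * P)) * Real.exp (κ * P) :=
    le_of_mul_le_mul_right h6 (by positivity)
  have h2 : (2 : ℝ) = Real.exp (Real.log 2) := (Real.exp_log (by norm_num)).symm
  rw [h2, ← Real.exp_add, ← Real.exp_add, Real.exp_le_exp] at h7
  have h8' : Real.log 2 ≤ Real.log 8 := Real.log_le_log (by norm_num) (by norm_num)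
  have h9 : κ * P ≤ κ0 * P := mul_le_mul_of_nonneg_right hκ0 (by linarith)
  linarith

theorem final6_of {GW : GwTy} {St : StTy} (hState : STATE6 St) (hAN : AN6P GW)
    (hLow : LOWER6 GW St) : Final6 := by
  classical
  intro h hdeg hpos hint
  obtain ⟨k, hk⟩ : ∃ k : ℕ, h.natDegree = k := ⟨_, rfl⟩
  have hk2 : 2 ≤ k := hk ▸ hdeg
  have hk1 : 1 ≤ k := by omega
  have hk' : 1 ≤ h.natDegree := by omega
  obtain ⟨lam0, r, Hh, R, hR, hH, hmul, hdvd, hr, hrr, hgcd⟩ := exists_aux h hk' hpos hint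
  have hAux : AuxData h lam0 r Hh R := ⟨hR, hH, hmul, hdvd, hr, hrr, hgcd⟩
  obtain ⟨S, hS, hcoef⟩ := hAux.coeff_bound hk' hpos
  obtain ⟨th0, hth0, hAN1⟩ := hAN k hk2
  obtain ⟨q0, hq0, hLow1⟩ := hLow k R hk2 hR
  obtain ⟨c1, κ1, hc1, hκ1, Pa, hAN2⟩ := hAN1 (R * q0 ^ k) (Nat.mul_pos hR (pow_pos hq0 k))
    th0 hth0 le_rfl
  -- the quality of the state
  obtain ⟨κ0, hκ0⟩ : ∃ x : ℝ, x = min (c1 / 4) (min (κ1 / (2 * k)) (1 / 8)) := ⟨_, rfl⟩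
  have hkr : (1 : ℝ) ≤ k := by exact_mod_cast hk1
  have hκ0pos : 0 < κ0 := by
    rw [hκ0]
    refine lt_min (by positivity) (lt_min (by positivity) (by norm_num))
  have hκ0c : κ0 ≤ c1 / 4 := by rw [hκ0]; exact min_le_left _ _
  have hκ0k : κ0 ≤ κ1 / (2 * k) := by
    rw [hκ0]; exact (min_le_right _ _).trans (min_le_left _ _)
  have hκ08 : κ0 ≤ 1 / 8 := by rw [hκ0]; exact (min_le_right _ _).trans (min_le_right _ _)
  obtain ⟨κ, hκ, hκle, Pb, hLow2⟩ := hLow1 th0 κ0 hth0 hκ0pos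
  obtain ⟨c, hc, Pc, hState1⟩ := hState h lam0 r Hh R hAux hdeg hpos κ hκ (hκle.trans hκ08)
  have hkκ : k * κ ≤ κ1 / 2 := by
    have h1 : κ ≤ κ1 / (2 * k) := hκle.trans hκ0k
    rw [le_div_iff₀ (by positivity)] at h1
    linarith
  have hκκ1 : κ ≤ κ1 := by
    have h1 : 1 * κ ≤ k * κ := mul_le_mul_of_nonneg_right hkr hκ.le
    linarith
  obtain ⟨M, hM⟩ : ∃ x : ℝ, x = ((k + 1 : ℕ) : ℝ) * ((2 * q0 : ℕ) : ℝ) ^ k *
      ((S : ℝ) * (S * 2 ^ k)) := ⟨_, rfl⟩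
  have hSr : (1 : ℝ) ≤ S := by exact_mod_cast hS
  have hq0r : (1 : ℝ) ≤ q0 := by exact_mod_cast hq0
  have hMpos : 0 < M := by
    rw [hM]
    positivity
  obtain ⟨Pd, hPd⟩ : ∃ x : ℝ, x = max (2 * Real.log M / κ1) ((Real.log 8 + 1) * 2 / c1) := ⟨_, rfl⟩
  obtain ⟨Ps, hPs⟩ : ∃ x : ℝ, x = max (max (max Pa Pb) (max Pc Pd)) 1 := ⟨_, rfl⟩
  have hPa' : Pa ≤ Ps := by
    rw [hPs]; exact (le_max_left _ _).trans ((le_max_left _ _).trans (le_max_left _ _))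
  have hPb' : Pb ≤ Ps := by
    rw [hPs]; exact (le_max_right _ _).trans ((le_max_left _ _).trans (le_max_left _ _))
  have hPc' : Pc ≤ Ps := by
    rw [hPs]; exact (le_max_left _ _).trans ((le_max_right _ _).trans (le_max_left _ _))
  have hPd' : Pd ≤ Ps := by
    rw [hPs]; exact (le_max_right _ _).trans ((le_max_right _ _).trans (le_max_left _ _))
  have hPs1 : 1 ≤ Ps := by rw [hPs]; exact le_max_right _ _
  refine ⟨c, Real.exp (c * Ps), hc, Real.exp_pos _, fun N hN => ?_⟩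
  have hN0 : (0 : ℝ) < N := by exact_mod_cast hN
  have hNpow : (N : ℝ) ^ (1 - c) = Real.exp (-(c * Real.log N)) * N := by
    rw [Real.rpow_sub hN0, Real.rpow_one, Real.rpow_def_of_pos hN0, Real.exp_neg,
      mul_comm (Real.log N) c]
    field_simp
  have hred : ∀ B : ℝ, 0 ≤ B → (∀ A0 : Finset ℤ, A0 ⊆ Icc (1 : ℤ) N → DiffFree h A0 →
      (A0.card : ℝ) ≤ B) → (rMax h N : ℝ) ≤ B := by
    intro B hB hall
    have h1 : rMax h N ≤ ⌊B⌋₊ := by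
      unfold rMax
      refine Finset.sup_le fun A0 hA0 => ?_
      rw [mem_filter, mem_powerset] at hA0
      exact Nat.le_floor (hall A0 hA0.1 hA0.2)
    exact (Nat.cast_le.2 h1).trans (Nat.floor_le hB)
  have hlogN : 0 ≤ Real.log N := Real.log_nonneg (by exact_mod_cast hN)
  rw [hNpow]
  rcases lt_or_ge (Real.log N) Ps with hlt | hge
  · have h1 : (rMax h N : ℝ) ≤ N := by
      refine hred N hN0.le fun A0 hA0 _ => ?_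
      have h2 := Finset.card_le_card hA0
      rw [Int.card_Icc] at h2
      have h3 : A0.card ≤ N := by omega
      exact_mod_cast h3
    have h3 : (1 : ℝ) ≤ Real.exp (c * Ps) * Real.exp (-(c * Real.log N)) := by
      rw [← Real.exp_add]
      apply Real.one_le_exp
      have h4 : c * Real.log N ≤ c * Ps := mul_le_mul_of_nonneg_left hlt.le hc.le
      linarith
    calc (rMax h N : ℝ) ≤ N := h1
      _ = 1 * N := (one_mul _).symm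
      _ ≤ (Real.exp (c * Ps) * Real.exp (-(c * Real.log N))) * N :=
          mul_le_mul_of_nonneg_right h3 hN0.le
      _ = _ := by ring
  · obtain ⟨P, hP⟩ : ∃ x : ℝ, x = Real.log N := ⟨_, rfl⟩
    rw [← hP] at hge ⊢
    have hP1 : 1 ≤ P := hPs1.trans hge
    have h1 : (rMax h N : ℝ) ≤ Real.exp (-(c * P)) * N := by
      refine hred _ (by positivity) fun A0 hA0 hfree => ?_
      by_contra hcon
      rw [not_le] at hcon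
      obtain ⟨d, N', G, hd1, hdle, hbase, hst⟩ :=
        hState1 P (hPc'.trans hge) N hN hP.symm A0 hA0 hfree hcon.le
      rw [hk] at hst
      have hfdeg : (Hh d).natDegree = k := by rw [hAux.natDegree_H (by omega) d hd1, hk]
      have hflead : 0 < (Hh d).leadingCoeff := hAux.lead_pos (by omega) hpos d hd1
      have hfcont := hAux.hgcd d hd1
      obtain ⟨z0, H, h0, z, G1, G2, hz0, h8, h16, hh0, hh, hz, hzN, hG1, hG2, hG1G, hG2G, hs1,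
        hs2, hlow⟩ := hLow2 P (hPb'.trans hge) (Hh d) N' G hfdeg hflead hfcont hbase hst
      have hcoef' := hcoef d hd1
      rw [hk] at hcoef'
      have hX1 : (1 : ℝ) ≤ Real.exp (κ * P) := Real.one_le_exp (by positivity)
      obtain ⟨hB1, hBc⟩ := coeff_B k S d (Hh d) (Real.exp (κ * P)) hS hX1 hcoef'.1 hcoef'.2 (by
        linarith)
      refine last_step (R' := R) (κ0 := κ0) (c1 := c1) (thQ := th0) hq0 hfdeg hflead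
        hfcont (by linarith) hBc hbase hP1 hκle hκκ1 ?_ ?_
        (hAN2 P (hPa'.trans hge)) hz0 h8 h16 hh0 hh hz hzN hG1 hG2 hG1G hG2G hs1 hs2 hlow
      · have h2 : (Real.log 8 + 1) * 2 / c1 ≤ P := by
          refine le_trans ?_ (hPd'.trans hge)
          rw [hPd]
          exact le_max_right _ _
        rw [div_le_iff₀ hc1] at h2
        have h3 : c1 / 2 * P ≤ (c1 - 2 * κ0) * P :=
          mul_le_mul_of_nonneg_right (by linarith) (by linarith)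
        linarith
      · have h2 : 2 * Real.log M / κ1 ≤ P := by
          refine le_trans ?_ (hPd'.trans hge)
          rw [hPd]
          exact le_max_left _ _
        rw [div_le_iff₀ hκ1] at h2
        have h3 : ((k + 1 : ℕ) : ℝ) * ((2 * q0 : ℕ) : ℝ) ^ k *
            ((S : ℝ) * (S * (2 * Real.exp (κ * P)) ^ k)) = M * Real.exp (k * (κ * P)) := by
          rw [hM, mul_pow, Real.exp_nat_mul]
          ring
        rw [h3]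
        have h4 : M = Real.exp (Real.log M) := (Real.exp_log hMpos).symm
        rw [h4, ← Real.exp_add, Real.exp_le_exp]
        have h5 : k * κ * P ≤ κ1 / 2 * P := mul_le_mul_of_nonneg_right hkκ (by linarith)
        linarith
    have h2 : (1 : ℝ) ≤ Real.exp (c * Ps) := Real.one_le_exp (by positivity)
    calc (rMax h N : ℝ) ≤ Real.exp (-(c * P)) * N := h1
      _ = 1 * (Real.exp (-(c * P)) * N) := (one_mul _).symm
      _ ≤ Real.exp (c * Ps) * (Real.exp (-(c * P)) * N) :=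
          mul_le_mul_of_nonneg_right h2 (by positivity)

end Vale.Agent.P042.H739
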