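import Vale.Agent.P042.H739.Final

set_option autoImplicit false

/-!
P042, block [S]: the frame of the target theorem `exp (- log N / (log log N) ^ C)`, and the
generic core (defect function `dl`, the modulus `q0` depends on `P`, signed weights).
-/

namespace Vale.Agent.P042.H739

open Polynomial Finset Vale.Agent.P042.SS Vale.Agent.P042.TT Vale.Agent.P042.UU

/-- target S: density `exp (- log N / (log log N) ^ C)` for every intersective polynomial -/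
def FinalS : Prop :=
  ∀ h : ℤ[X], 2 ≤ h.natDegree → 0 < h.leadingCoeff → Intersective h →
    ∃ C N0 : ℕ, ∀ N : ℕ, N0 ≤ N →
      (rMax h N : ℝ) ≤ N * Real.exp (-(Real.log N / Real.log (Real.log N) ^ C))

/-- the circle method for one pair of windows, signed weights, at one value of `P`;
uniform in the content `R ≤ exp (κ1 P)` -/
def ANat (GW : GwTy) (k : ℕ) (κ1 c1 thQ P : ℝ) : Prop :=
  ∀ (R : ℕ) (f : ℤ[X]) (N' H h0 : ℕ) (z : ℤ) (G1 G2 : ℤ → ℝ), 1 ≤ R →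
    (R : ℝ) ≤ Real.exp (κ1 * P) → f.natDegree = k → 0 < f.leadingCoeff →
    (∀ g : ℤ, (∀ j : ℕ, 1 ≤ j → g ∣ f.coeff j) → g ∣ (R : ℤ)) →
    (∀ j : ℕ, |(f.coeff j : ℝ)| ≤ Real.exp (κ1 * P)) →
    Real.exp ((1 - κ1) * P) ≤ N' → (N' : ℝ) ≤ Real.exp P →
    8 * (H + h0) ≤ N' → N' ≤ 16 * H → 1 ≤ h0 → 2 * h0 ≤ H → 0 ≤ z →
    z + 3 * H + 2 * h0 ≤ N' →
    (∀ n, G1 n ≠ 0 → z + 3 * H + h0 < n ∧ n ≤ z + 3 * H + 2 * h0) →
    (∀ n, G2 n ≠ 0 → z < n ∧ n ≤ z + h0) →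
    (∀ n m : ℤ, (G1 n ≠ 0 ∨ G2 n ≠ 0) → (G1 m ≠ 0 ∨ G2 m ≠ 0) → ∀ x : ℕ, 1 ≤ x →
      n - m = f.eval (x : ℤ) → n = m) →
    ‖∑ q ∈ Icc 1 ⌊Real.exp (thQ * P)⌋₊, ∑ a ∈ (range q).filter (Nat.Coprime q),
      GW f P a q * (Fs G1 N' ((a : ℝ) / q) * (starRingEnd ℂ) (Fs G2 N' ((a : ℝ) / q)))‖ ≤
      Real.exp (-(c1 * P)) * N' * (∑ n ∈ Icc (1 : ℤ) N', G1 n ^ 2 + ∑ n ∈ Icc (1 : ℤ) N', G2 n ^ 2)

/-- the circle method, uniform in the content -/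
def ANU (GW : GwTy) : Prop :=
  ∀ k : ℕ, 2 ≤ k → ∃ th0 : ℝ, 0 < th0 ∧ ∀ thQ : ℝ, 0 < thQ → thQ ≤ th0 →
  ∃ c1 κ1 : ℝ, 0 < c1 ∧ 0 < κ1 ∧ ∃ P0 : ℝ, ∀ P : ℝ, P0 ≤ P → ANat GW k κ1 c1 thQ P

/-- the lower bound for the local part, at one state -/
def LOWat (GW : GwTy) (κ0 thQ P : ℝ) (f : ℤ[X]) (N' : ℕ) (G : ℤ → ℝ) : Prop :=
  ∃ (q0 z0 H h0 : ℕ) (z : ℤ) (G1 G2 : ℤ → ℝ), 1 ≤ q0 ∧ (q0 : ℝ) ≤ Real.exp (κ0 * P) ∧
    z0 ≤ q0 ∧ 8 * (H + h0) ≤ N' ∧ N' ≤ 16 * H ∧ 1 ≤ h0 ∧ 2 * h0 ≤ H ∧ 0 ≤ z ∧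
    z + 3 * H + 2 * h0 ≤ N' ∧
    (∀ n, G1 n ≠ 0 → G n ≠ 0) ∧ (∀ n, G2 n ≠ 0 → G n ≠ 0) ∧
    (∀ n, G1 n ≠ 0 → z + 3 * H + h0 < n ∧ n ≤ z + 3 * H + 2 * h0) ∧
    (∀ n, G2 n ≠ 0 → z < n ∧ n ≤ z + h0) ∧
    ∑ n ∈ Icc (1 : ℤ) N', G1 n ^ 2 ≤ Real.exp (κ0 * P) * N' ∧
    ∑ n ∈ Icc (1 : ℤ) N', G2 n ^ 2 ≤ Real.exp (κ0 * P) * N' ∧
    Real.exp (-(κ0 * P)) * (N' : ℝ) ^ 2 ≤
      ‖∑ q ∈ Icc 1 ⌊Real.exp (thQ * P)⌋₊, ∑ a ∈ (range q).filter (Nat.Coprime q),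
        GW (f.comp (C (z0 : ℤ) + C (q0 : ℤ) * X)) P a q *
          (Fs G1 N' ((a : ℝ) / q) * (starRingEnd ℂ) (Fs G2 N' ((a : ℝ) / q)))‖

/-- from a dense set without differences to a state, at one value of `P`; `dl` is the defect -/
def STat (h : ℤ[X]) (Hh : ℕ → ℤ[X]) (κ dl P : ℝ) (Sp : ℤ[X] → ℕ → (ℤ → ℝ) → Prop) : Prop :=
  ∀ N : ℕ, 1 ≤ N → Real.log N = P → ∀ A0 : Finset ℤ, A0 ⊆ Icc (1 : ℤ) N → DiffFree h A0 →
    Real.exp (-dl) * N ≤ (A0.card : ℝ) →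
    ∃ (d N' : ℕ) (G : ℤ → ℝ), 1 ≤ d ∧ (d : ℝ) ≤ Real.exp (κ * P) ∧
      Base6 (Hh d) κ P N' G ∧ Sp (Hh d) N' G

/-- the type of the state predicate of target S: `k R f κ C P N' G` -/
abbrev StTyS := ℕ → ℕ → ℤ[X] → ℝ → ℕ → ℝ → ℕ → (ℤ → ℝ) → Prop

/-- the target with the defect function `dl C (log N)`: density `exp (- dl C (log N))` -/
def FinalX (dl : ℕ → ℝ → ℝ) : Prop :=
  ∀ h : ℤ[X], 2 ≤ h.natDegree → 0 < h.leadingCoeff → Intersective h →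
    ∃ C N0 : ℕ, ∀ N : ℕ, N0 ≤ N → (rMax h N : ℝ) ≤ N * Real.exp (-dl C (Real.log N))

/-- first half with the defect function `dl` -/
def STATEX (dl : ℕ → ℝ → ℝ) (St : StTyS) : Prop :=
  ∀ (h : ℤ[X]) (lam0 : ℕ → ℕ) (r : ℕ → ℤ) (Hh : ℕ → ℤ[X]) (R : ℕ),
    AuxData h lam0 r Hh R → 2 ≤ h.natDegree → 0 < h.leadingCoeff →
  ∀ (κ : ℝ) (C : ℕ), 0 < κ → κ ≤ 1 / 8 → 1 ≤ C → ∃ P0 : ℝ, ∀ P : ℝ, P0 ≤ P →
    STat h Hh κ (dl C P) P (fun f N' G => St h.natDegree R f κ C P N' G)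

/-- target S, first half: every dense set without differences yields a state -/
def STATES (St : StTyS) : Prop :=
  ∀ (h : ℤ[X]) (lam0 : ℕ → ℕ) (r : ℕ → ℤ) (Hh : ℕ → ℤ[X]) (R : ℕ),
    AuxData h lam0 r Hh R → 2 ≤ h.natDegree → 0 < h.leadingCoeff →
  ∀ (κ : ℝ) (C : ℕ), 0 < κ → κ ≤ 1 / 8 → 1 ≤ C → ∃ P0 : ℝ, ∀ P : ℝ, P0 ≤ P →
    STat h Hh κ (P / Real.log P ^ C) P (fun f N' G => St h.natDegree R f κ C P N' G)

/-- target S, second half: every state has a large local part -/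
def LOWERS (GW : GwTy) (St : StTyS) : Prop :=
  ∀ k R : ℕ, 2 ≤ k → 1 ≤ R → ∀ thQ κ0 : ℝ, 0 < thQ → thQ ≤ 1 / 16 → 0 < κ0 →
  ∃ (κ : ℝ) (C : ℕ), 0 < κ ∧ κ ≤ κ0 ∧ 1 ≤ C ∧ ∃ P0 : ℝ, ∀ P : ℝ, P0 ≤ P →
  ∀ (f : ℤ[X]) (N' : ℕ) (G : ℤ → ℝ), f.natDegree = k → 0 < f.leadingCoeff →
    (∀ g : ℤ, (∀ j : ℕ, 1 ≤ j → g ∣ f.coeff j) → g ∣ (R : ℤ)) →
    (∀ j : ℕ, |(f.coeff j : ℝ)| ≤ Real.exp (2 * k * κ * P)) →
    Base6 f κ P N' G → St k R f κ C P N' G → LOWat GW κ0 thQ P f N' G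

/-! ### the core -/

/-- the contradiction, for one state -/
theorem last_stepS {GW : GwTy} {k R : ℕ} (hk : 1 ≤ k) {f : ℤ[X]} {κ κ0 κ1 c1 thQ B P : ℝ}
    {N' : ℕ} {G : ℤ → ℝ} (hfk : f.natDegree = k) (hlead : 0 < f.leadingCoeff) (hR : 1 ≤ R)
    (hcont : ∀ g : ℤ, (∀ j : ℕ, 1 ≤ j → g ∣ f.coeff j) → g ∣ (R : ℤ))
    (hB0 : 0 ≤ B) (hB : ∀ j : ℕ, |(f.coeff j : ℝ)| ≤ B)
    (hbase : Base6 f κ P N' G) (hP1 : 1 ≤ P) (hκ1 : κ ≤ κ1)
    (hPc : Real.log 8 < (c1 - 2 * κ0) * P)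
    (hRP : (R : ℝ) * Real.exp (k * (κ0 * P)) ≤ Real.exp (κ1 * P))
    (hBP : ((k + 1 : ℕ) : ℝ) * 2 ^ k * Real.exp (k * (κ0 * P)) * B ≤ Real.exp (κ1 * P))
    (hAN : ANat GW k κ1 c1 thQ P) (hlow : LOWat GW κ0 thQ P f N' G) : False := by
  obtain ⟨q0, z0, H, h0, z, G1, G2, hq0, hq0P, hz0, h8, h16, hh0, hh, hz, hzN, hG1G, hG2G, hs1,
    hs2, hsq1, hsq2, hlow⟩ := hlow
  obtain ⟨g, hg⟩ : ∃ g : ℤ[X], g = f.comp (C (z0 : ℤ) + C (q0 : ℤ) * X) := ⟨_, rfl⟩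
  rw [← hg] at hlow
  have hgdeg : g.natDegree = k := by rw [hg, comp_natDegree f z0 q0 hq0, hfk]
  have hglead : 0 < g.leadingCoeff := hg ▸ comp_lead f z0 q0 hq0 hlead
  have hgcont : ∀ g' : ℤ, (∀ j : ℕ, 1 ≤ j → g' ∣ g.coeff j) → g' ∣ ((R * q0 ^ k : ℕ) : ℤ) := by
    rw [hg, ← hfk]
    exact comp_content f z0 q0 R hcont
  have hq0r : (1 : ℝ) ≤ q0 := by exact_mod_cast hq0
  have hqk : (q0 : ℝ) ^ k ≤ Real.exp (k * (κ0 * P)) := by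
    rw [Real.exp_nat_mul]
    exact pow_le_pow_left₀ (by linarith) hq0P k
  have hRq : ((R * q0 ^ k : ℕ) : ℝ) ≤ Real.exp (κ1 * P) := by
    push_cast
    exact (mul_le_mul_of_nonneg_left hqk (Nat.cast_nonneg _)).trans hRP
  have hgB : ∀ j : ℕ, |(g.coeff j : ℝ)| ≤ Real.exp (κ1 * P) := fun j => by
    rw [hg]
    refine (comp_bound f k z0 q0 B hfk hz0 hq0 hB0 hB j).trans (le_trans ?_ hBP)
    refine mul_le_mul_of_nonneg_right ?_ hB0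
    push_cast
    rw [mul_pow, ← mul_assoc]
    exact mul_le_mul_of_nonneg_left hqk (by positivity)
  have hN'lo : Real.exp ((1 - κ1) * P) ≤ N' :=
    le_trans (Real.exp_le_exp.2 (mul_le_mul_of_nonneg_right (by linarith) (by linarith))) hbase.lo
  have hN'0 : (0 : ℝ) < N' := lt_of_lt_of_le (Real.exp_pos _) hbase.lo
  have hdf : ∀ n m : ℤ, (G1 n ≠ 0 ∨ G2 n ≠ 0) → (G1 m ≠ 0 ∨ G2 m ≠ 0) → ∀ x : ℕ, 1 ≤ x →
      n - m = g.eval (x : ℤ) → n = m := by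
    intro n m hn hm x hx he
    have hn' : G n ≠ 0 := hn.elim (hG1G n) (hG2G n)
    have hm' : G m ≠ 0 := hm.elim (hG1G m) (hG2G m)
    refine hbase.df n m hn' hm' (z0 + q0 * x) ?_ ?_
    · have : 1 ≤ q0 * x := Nat.mul_pos hq0 hx
      omega
    · rw [he, hg, eval_comp]
      congr 1
      simp
  have hA := hAN (R * q0 ^ k) g N' H h0 z G1 G2 (Nat.mul_pos hR (pow_pos hq0 k)) hRq hgdeg hglead
    hgcont hgB hN'lo hbase.hi h8 h16 hh0 hh hz hzN hs1 hs2 hdf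
  have h5 := hlow.trans (hA.trans (mul_le_mul_of_nonneg_left
    (add_le_add hsq1 hsq2) (by positivity)))
  have h6 : Real.exp (-(κ0 * P)) * (N' : ℝ) ^ 2 ≤
      (2 * Real.exp (-(c1 * P)) * Real.exp (κ0 * P)) * (N' : ℝ) ^ 2 :=
    h5.trans (le_of_eq (by ring))
  have h7 : Real.exp (-(κ0 * P)) ≤ 2 * Real.exp (-(c1 * P)) * Real.exp (κ0 * P) :=
    le_of_mul_le_mul_right h6 (by positivity)
  have h2 : (2 : ℝ) = Real.exp (Real.log 2) := (Real.exp_log (by norm_num)).symm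
  rw [h2, ← Real.exp_add, ← Real.exp_add, Real.exp_le_exp] at h7
  have h8' : Real.log 2 ≤ Real.log 8 := Real.log_le_log (by norm_num) (by norm_num)
  linarith

/-- the generic core: `dl` is the allowed density defect -/
theorem core_of {GW : GwTy} {h : ℤ[X]} {lam0 : ℕ → ℕ} {r : ℕ → ℤ} {Hh : ℕ → ℤ[X]} {R k : ℕ}
    (hAux : AuxData h lam0 r Hh R) (hk : h.natDegree = k) (hk2 : 2 ≤ k)
    (hpos : 0 < h.leadingCoeff) (hR : 1 ≤ R) {κ κ0 κ1 c1 thQ Pa Pb Pc : ℝ} (hc1 : 0 < c1)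
    (hκ1 : 0 < κ1) (hκ : 0 < κ) (hκκ0 : κ ≤ κ0) (hκ0c : κ0 ≤ c1 / 4)
    (hκ0k : κ0 ≤ κ1 / (4 * k)) (dl : ℝ → ℝ) (Sp : ℝ → ℤ[X] → ℕ → (ℤ → ℝ) → Prop)
    (hAN : ∀ P : ℝ, Pa ≤ P → ANat GW k κ1 c1 thQ P)
    (hLow : ∀ P : ℝ, Pb ≤ P → ∀ (f : ℤ[X]) (N' : ℕ) (G : ℤ → ℝ), f.natDegree = k →
      0 < f.leadingCoeff → (∀ g : ℤ, (∀ j : ℕ, 1 ≤ j → g ∣ f.coeff j) → g ∣ (R : ℤ)) →
      (∀ j : ℕ, |(f.coeff j : ℝ)| ≤ Real.exp (2 * k * κ * P)) →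
      Base6 f κ P N' G → Sp P f N' G → LOWat GW κ0 thQ P f N' G)
    (hState : ∀ P : ℝ, Pc ≤ P → STat h Hh κ (dl P) P (Sp P)) :
    ∃ P0 : ℝ, ∀ N : ℕ, 1 ≤ N → P0 ≤ Real.log N →
      (rMax h N : ℝ) ≤ N * Real.exp (-dl (Real.log N)) := by
  classical
  have hk1 : 1 ≤ k := by omega
  have hk' : 1 ≤ h.natDegree := by omega
  obtain ⟨S, hS, hcoef⟩ := hAux.coeff_bound hk' hpos
  have hkr : (1 : ℝ) ≤ k := by exact_mod_cast hk1
  have hκ0pos : 0 < κ0 := lt_of_lt_of_le hκ hκκ0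
  have hkκ0 : k * κ0 ≤ κ1 / 4 := by
    have h1 := hκ0k
    rw [le_div_iff₀ (by positivity)] at h1
    linarith
  have hkκ : k * κ ≤ κ1 / 4 := le_trans (mul_le_mul_of_nonneg_left hκκ0 (by linarith)) hkκ0
  have hκκ1 : κ ≤ κ1 := by
    have h1 : 1 * κ ≤ k * κ := mul_le_mul_of_nonneg_right hkr hκ.le
    linarith
  have hSr : (1 : ℝ) ≤ S := by exact_mod_cast hS
  obtain ⟨M, hM⟩ : ∃ x : ℝ, x = ((k + 1 : ℕ) : ℝ) * 2 ^ k * ((S : ℝ) * (S * 2 ^ k)) := ⟨_, rfl⟩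
  have hMpos : 0 < M := by
    rw [hM]
    positivity
  have hRr : (1 : ℝ) ≤ R := by exact_mod_cast hR
  obtain ⟨M2, hM2⟩ : ∃ x : ℝ, x = (S : ℝ) * (S * 2 ^ k) := ⟨_, rfl⟩
  have hM2pos : 0 < M2 := by
    rw [hM2]
    positivity
  obtain ⟨Pd, hPd⟩ : ∃ x : ℝ, x = max (max (2 * Real.log M / κ1) ((Real.log 8 + 1) * 2 / c1))
    (max (2 * Real.log R / κ1) (Real.log M2 / (k * κ))) := ⟨_, rfl⟩
  refine ⟨max (max (max Pa Pb) (max Pc Pd)) 1, fun N hN hge => ?_⟩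
  obtain ⟨P, hP⟩ : ∃ x : ℝ, x = Real.log N := ⟨_, rfl⟩
  rw [← hP] at hge ⊢
  have hPa' : Pa ≤ P := (le_max_left _ _).trans ((le_max_left _ _).trans ((le_max_left _ _).trans hge))
  have hPb' : Pb ≤ P := (le_max_right _ _).trans ((le_max_left _ _).trans ((le_max_left _ _).trans hge))
  have hPc' : Pc ≤ P := (le_max_left _ _).trans ((le_max_right _ _).trans ((le_max_left _ _).trans hge))
  have hPd' : Pd ≤ P := (le_max_right _ _).trans ((le_max_right _ _).trans ((le_max_left _ _).trans hge))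
  have hP1 : 1 ≤ P := (le_max_right _ _).trans hge
  have hPp : 0 < P := by linarith
  rw [hPd] at hPd'
  have hd1' : 2 * Real.log M / κ1 ≤ P := (le_max_left _ _).trans ((le_max_left _ _).trans hPd')
  have hd2' : (Real.log 8 + 1) * 2 / c1 ≤ P :=
    (le_max_right _ _).trans ((le_max_left _ _).trans hPd')
  have hd3' : 2 * Real.log R / κ1 ≤ P := (le_max_left _ _).trans ((le_max_right _ _).trans hPd')
  have hd4' : Real.log M2 / (k * κ) ≤ P :=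
    (le_max_right _ _).trans ((le_max_right _ _).trans hPd')
  rw [div_le_iff₀ hκ1] at hd1' hd3'
  rw [div_le_iff₀ hc1] at hd2'
  rw [div_le_iff₀ (by positivity)] at hd4'
  have hred : ∀ B : ℝ, 0 ≤ B → (∀ A0 : Finset ℤ, A0 ⊆ Icc (1 : ℤ) N → DiffFree h A0 →
      (A0.card : ℝ) ≤ B) → (rMax h N : ℝ) ≤ B := by
    intro B hB hall
    have h1 : rMax h N ≤ ⌊B⌋₊ := by
      unfold rMax
      refine Finset.sup_le fun A0 hA0 => ?_
      rw [mem_filter, mem_powerset] at hA0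
      exact Nat.le_floor (hall A0 hA0.1 hA0.2)
    exact (Nat.cast_le.2 h1).trans (Nat.floor_le hB)
  refine hred _ (by positivity) fun A0 hA0 hfree => ?_
  by_contra hcon
  rw [not_le] at hcon
  obtain ⟨d, N', G, hd1, hdle, hbase, hst⟩ :=
    hState P hPc' N hN hP.symm A0 hA0 hfree (by rw [mul_comm]; exact hcon.le)
  have hfdeg : (Hh d).natDegree = k := by rw [hAux.natDegree_H (by omega) d hd1, hk]
  have hflead : 0 < (Hh d).leadingCoeff := hAux.lead_pos (by omega) hpos d hd1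
  have hfcont := hAux.hgcd d hd1
  have hcoef' := hcoef d hd1
  rw [hk] at hcoef'
  have hX1 : (1 : ℝ) ≤ Real.exp (κ * P) := Real.one_le_exp (by positivity)
  obtain ⟨hB1, hBc⟩ := coeff_B k S d (Hh d) (Real.exp (κ * P)) hS hX1 hcoef'.1 hcoef'.2 (by
    linarith)
  have hBeq : (S : ℝ) * (S * (2 * Real.exp (κ * P)) ^ k) = M2 * Real.exp (k * (κ * P)) := by
    rw [hM2, mul_pow, Real.exp_nat_mul]
    ring
  have hBc2 : ∀ j : ℕ, |((Hh d).coeff j : ℝ)| ≤ Real.exp (2 * k * κ * P) := by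
    intro j
    refine (hBc j).trans ?_
    rw [hBeq]
    have h4 : M2 = Real.exp (Real.log M2) := (Real.exp_log hM2pos).symm
    rw [h4, ← Real.exp_add, Real.exp_le_exp]
    have h5 : P * (k * κ) = k * (κ * P) := by ring
    have h6 : 2 * k * κ * P = 2 * (k * (κ * P)) := by ring
    rw [h6]
    rw [h5] at hd4'
    linarith
  have hlow := hLow P hPb' (Hh d) N' G hfdeg hflead hfcont hBc2 hbase hst
  refine last_stepS hk1 hfdeg hflead hR hfcont (by linarith) hBc hbase hP1 hκκ1 ?_ ?_ ?_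
    (hAN P hPa') hlow
  · have h3 : c1 / 2 * P ≤ (c1 - 2 * κ0) * P :=
      mul_le_mul_of_nonneg_right (by linarith) (by linarith)
    linarith
  · have h4 : (R : ℝ) = Real.exp (Real.log R) := (Real.exp_log (by linarith)).symm
    rw [h4, ← Real.exp_add, Real.exp_le_exp]
    have h5 : k * κ0 * P ≤ κ1 / 4 * P := mul_le_mul_of_nonneg_right hkκ0 hPp.le
    have h6 : 0 < κ1 * P := mul_pos hκ1 hPp
    linarith
  · have h3 : ((k + 1 : ℕ) : ℝ) * 2 ^ k * Real.exp (k * (κ0 * P)) *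
        ((S : ℝ) * (S * (2 * Real.exp (κ * P)) ^ k)) =
        M * (Real.exp (k * (κ0 * P)) * Real.exp (k * (κ * P))) := by
      rw [hM, hBeq, hM2]
      ring
    rw [h3]
    have h4 : M = Real.exp (Real.log M) := (Real.exp_log hMpos).symm
    rw [h4, ← Real.exp_add, ← Real.exp_add, Real.exp_le_exp]
    have h5 : k * κ0 * P ≤ κ1 / 4 * P := mul_le_mul_of_nonneg_right hkκ0 hPp.le
    have h6 : k * κ * P ≤ κ1 / 4 * P := mul_le_mul_of_nonneg_right hkκ hPp.le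
    linarith

/-- **the target with an arbitrary defect function from its three parts** -/
theorem finalX_of (dl : ℕ → ℝ → ℝ) {GW : GwTy} {St : StTyS} (hState : STATEX dl St) (hAN : ANU GW)
    (hLow : LOWERS GW St) : FinalX dl := by
  intro h hdeg hpos hint
  obtain ⟨k, hk⟩ : ∃ k : ℕ, h.natDegree = k := ⟨_, rfl⟩
  have hk2 : 2 ≤ k := hk ▸ hdeg
  have hk' : 1 ≤ h.natDegree := by omega
  obtain ⟨lam0, r, Hh, R, hR, hH, hmul, hdvd, hr, hrr, hgcd⟩ := exists_aux h hk' hpos hint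
  have hAux : AuxData h lam0 r Hh R := ⟨hR, hH, hmul, hdvd, hr, hrr, hgcd⟩
  obtain ⟨thA, hthA, hAN1⟩ := hAN k hk2
  obtain ⟨th0, hth0e⟩ : ∃ x : ℝ, x = min thA (1 / 16) := ⟨_, rfl⟩
  have hth0 : 0 < th0 := by
    rw [hth0e]
    exact lt_min hthA (by norm_num)
  have hth016 : th0 ≤ 1 / 16 := by rw [hth0e]; exact min_le_right _ _
  have hth0A : th0 ≤ thA := by rw [hth0e]; exact min_le_left _ _
  obtain ⟨c1, κ1, hc1, hκ1, Pa, hAN2⟩ := hAN1 th0 hth0 hth0A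
  have hkr : (1 : ℝ) ≤ k := by exact_mod_cast (by omega : 1 ≤ k)
  obtain ⟨κ0, hκ0⟩ : ∃ x : ℝ, x = min (c1 / 4) (min (κ1 / (4 * k)) (1 / 8)) := ⟨_, rfl⟩
  have hκ0pos : 0 < κ0 := by
    rw [hκ0]
    refine lt_min (by positivity) (lt_min (by positivity) (by norm_num))
  have hκ0c : κ0 ≤ c1 / 4 := by rw [hκ0]; exact min_le_left _ _
  have hκ0k : κ0 ≤ κ1 / (4 * k) := by
    rw [hκ0]; exact (min_le_right _ _).trans (min_le_left _ _)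
  have hκ08 : κ0 ≤ 1 / 8 := by rw [hκ0]; exact (min_le_right _ _).trans (min_le_right _ _)
  obtain ⟨κ, C, hκ, hκκ0, hC, Pb, hLow2⟩ := hLow k R hk2 hR th0 κ0 hth0 hth016 hκ0pos
  obtain ⟨Pc, hState2⟩ := hState h lam0 r Hh R hAux hdeg hpos κ C hκ (hκκ0.trans hκ08) hC
  rw [hk] at hState2
  obtain ⟨P0, hfin⟩ := core_of hAux hk hk2 hpos hR hc1 hκ1 hκ hκκ0 hκ0c hκ0k
    (dl C) (fun P f N' G => St k R f κ C P N' G) hAN2 hLow2 hState2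
  refine ⟨C, max 1 ⌈Real.exp P0⌉₊, fun N hN => ?_⟩
  have hN1 : 1 ≤ N := (le_max_left _ _).trans hN
  have h1 : Real.exp P0 ≤ N := (Nat.le_ceil _).trans (by exact_mod_cast (le_max_right _ _).trans hN)
  have h2 : P0 ≤ Real.log N := by
    rw [Real.le_log_iff_exp_le (by exact_mod_cast hN1)]
    exact h1
  exact hfin N hN1 h2

/-- **target S from its three parts** -/
theorem finalS_of {GW : GwTy} {St : StTyS} (hState : STATES St) (hAN : ANU GW)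
    (hLow : LOWERS GW St) : FinalS :=
  finalX_of (fun C P => P / Real.log P ^ C) hState hAN hLow

/-- the full theorem, second half, in the generic shape: signed weights, `q0` after `P` -/
def LOWERF (GW : GwTy) (St : StTy) : Prop :=
  ∀ k R : ℕ, 2 ≤ k → 1 ≤ R → ∀ thQ κ0 : ℝ, 0 < thQ → thQ ≤ 1 / 16 → 0 < κ0 →
  ∃ κ : ℝ, 0 < κ ∧ κ ≤ κ0 ∧ ∃ P0 : ℝ, ∀ P : ℝ, P0 ≤ P →
  ∀ (f : ℤ[X]) (N' : ℕ) (G : ℤ → ℝ), f.natDegree = k → 0 < f.leadingCoeff →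
    (∀ g : ℤ, (∀ j : ℕ, 1 ≤ j → g ∣ f.coeff j) → g ∣ (R : ℤ)) →
    (∀ j : ℕ, |(f.coeff j : ℝ)| ≤ Real.exp (2 * k * κ * P)) →
    Base6 f κ P N' G → St k R f κ P N' G → LOWat GW κ0 thQ P f N' G

/-- **the full theorem from its three parts, generic shape** -/
theorem finalF_of {GW : GwTy} {St : StTy} (hState : STATE6 St) (hAN : ANU GW)
    (hLow : LOWERF GW St) : Final6 := by
  classical
  intro h hdeg hpos hint
  obtain ⟨k, hk⟩ : ∃ k : ℕ, h.natDegree = k := ⟨_, rfl⟩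
  have hk2 : 2 ≤ k := hk ▸ hdeg
  have hk' : 1 ≤ h.natDegree := by omega
  obtain ⟨lam0, r, Hh, R, hR, hH, hmul, hdvd, hr, hrr, hgcd⟩ := exists_aux h hk' hpos hint
  have hAux : AuxData h lam0 r Hh R := ⟨hR, hH, hmul, hdvd, hr, hrr, hgcd⟩
  obtain ⟨thA, hthA, hAN1⟩ := hAN k hk2
  obtain ⟨th0, hth0e⟩ : ∃ x : ℝ, x = min thA (1 / 16) := ⟨_, rfl⟩
  have hth0 : 0 < th0 := by
    rw [hth0e]
    exact lt_min hthA (by norm_num)
  have hth016 : th0 ≤ 1 / 16 := by rw [hth0e]; exact min_le_right _ _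
  have hth0A : th0 ≤ thA := by rw [hth0e]; exact min_le_left _ _
  obtain ⟨c1, κ1, hc1, hκ1, Pa, hAN2⟩ := hAN1 th0 hth0 hth0A
  have hkr : (1 : ℝ) ≤ k := by exact_mod_cast (by omega : 1 ≤ k)
  obtain ⟨κ0, hκ0⟩ : ∃ x : ℝ, x = min (c1 / 4) (min (κ1 / (4 * k)) (1 / 8)) := ⟨_, rfl⟩
  have hκ0pos : 0 < κ0 := by
    rw [hκ0]
    refine lt_min (by positivity) (lt_min (by positivity) (by norm_num))
  have hκ0c : κ0 ≤ c1 / 4 := by rw [hκ0]; exact min_le_left _ _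
  have hκ0k : κ0 ≤ κ1 / (4 * k) := by
    rw [hκ0]; exact (min_le_right _ _).trans (min_le_left _ _)
  have hκ08 : κ0 ≤ 1 / 8 := by rw [hκ0]; exact (min_le_right _ _).trans (min_le_right _ _)
  obtain ⟨κ, hκ, hκκ0, Pb, hLow2⟩ := hLow k R hk2 hR th0 κ0 hth0 hth016 hκ0pos
  obtain ⟨c, hc, Pc, hState2⟩ := hState h lam0 r Hh R hAux hdeg hpos κ hκ (hκκ0.trans hκ08)
  obtain ⟨P0, hfin⟩ := core_of hAux hk hk2 hpos hR hc1 hκ1 hκ hκκ0 hκ0c hκ0k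
    (fun P => c * P) (fun P f N' G => St k R f κ P N' G) hAN2 hLow2
    (fun P hP N hN hlog A0 hA0 hfree hcard => by
      have h1 := hState2 P hP N hN hlog A0 hA0 hfree hcard
      rw [hk] at h1
      exact h1)
  refine ⟨c, Real.exp (c * max P0 0), hc, Real.exp_pos _, fun N hN => ?_⟩
  have hN0 : (0 : ℝ) < N := by exact_mod_cast hN
  have hNpow : (N : ℝ) ^ (1 - c) = Real.exp (-(c * Real.log N)) * N := by
    rw [Real.rpow_sub hN0, Real.rpow_one, Real.rpow_def_of_pos hN0, Real.exp_neg,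
      mul_comm (Real.log N) c]
    field_simp
  rw [hNpow]
  rcases lt_or_ge (Real.log N) (max P0 0) with hlt | hge
  · have h1 : (rMax h N : ℝ) ≤ N := by
      have h2 : rMax h N ≤ N := by
        unfold rMax
        refine Finset.sup_le fun A0 hA0 => ?_
        rw [mem_filter, mem_powerset] at hA0
        have h3 := Finset.card_le_card hA0.1
        rw [Int.card_Icc] at h3
        omega
      exact_mod_cast h2
    have h3 : (1 : ℝ) ≤ Real.exp (c * max P0 0) * Real.exp (-(c * Real.log N)) := by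
      rw [← Real.exp_add]
      apply Real.one_le_exp
      have h4 : c * Real.log N ≤ c * max P0 0 := mul_le_mul_of_nonneg_left hlt.le hc.le
      linarith
    calc (rMax h N : ℝ) ≤ N := h1
      _ = 1 * N := (one_mul _).symm
      _ ≤ (Real.exp (c * max P0 0) * Real.exp (-(c * Real.log N))) * N :=
          mul_le_mul_of_nonneg_right h3 hN0.le
      _ = _ := by ring
  · have h1 := hfin N hN ((le_max_left _ _).trans hge)
    have h2 : (1 : ℝ) ≤ Real.exp (c * max P0 0) :=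
      Real.one_le_exp (mul_nonneg hc.le (le_max_right _ _))
    calc (rMax h N : ℝ) ≤ N * Real.exp (-(c * Real.log N)) := h1
      _ = 1 * (Real.exp (-(c * Real.log N)) * N) := by ring
      _ ≤ Real.exp (c * max P0 0) * (Real.exp (-(c * Real.log N)) * N) :=
          mul_le_mul_of_nonneg_right h2 (by positivity)

end Vale.Agent.P042.H739
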