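import Vale.Agent.P042.H739.SeamP
import Vale.Agent.P042.H245.ANU
import Vale.Agent.P042.H74.SeamG
import Vale.Agent.P042.H74.ProdDns
import Vale.Agent.P042.H359.Cells
import Vale.Agent.P042.H758.QoneBound
import Vale.Agent.P042.H944.SeamNum

set_option autoImplicit false

/-!
P042: the integer side of the second half of the power version: `LOWERF` from the masses of the
cells of a state and from the lower bound of the local sum.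
-/

namespace Vale.Agent.P042.H739

open Polynomial Finset Vale.Agent.P042.SS Vale.Agent.P042.H74 Vale.Agent.P042.H452
open Vale.Agent.P042.H245 Vale.Agent.P042.H359

/-- the tiny primes -/
def Tst (K0 : ℕ) : Finset ℕ := (range (K0 + 1)).filter Nat.Prime

/-- the primes of the low part -/
noncomputable def Wst (K0 : ℕ) (g P : ℝ) : Finset ℕ :=
  (range (⌊P ^ (2 - g)⌋₊ + 1)).filter fun p => p.Prime ∧ K0 < p

/-- the modulus of the substitution -/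
def q1s (k R K0 : ℕ) : ℕ := qone k R (Tst K0)

/-- the modulus of the cells -/
noncomputable def q0s (k R K0 : ℕ) (f : ℤ[X]) (z0 : ℕ) : ℕ := qnul f (q1s k R K0) z0

/-- a cell: a class in a window -/
noncomputable def cell (q : ℕ) (w : ZMod q) (z : ℤ) (V : ℕ) : Finset ℤ :=
  (Ioc z (z + V)).filter fun n : ℤ => (n : ZMod q) = w

/-- the weighted complete sums; the range of the sieve depends on the degree -/
noncomputable def GWk (C1f : ℕ → ℝ) : GwTy := fun f P a q =>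
  GamW f (PPf (C1f f.natDegree) f P) a q

theorem anu_k (C1f : ℕ → ℝ) (hC1 : ∀ k, 1 ≤ C1f k) : ANU (GWk C1f) := by
  intro k hk
  obtain ⟨th0, hth0, h1⟩ := anu (C1f k) (hC1 k) k hk
  refine ⟨th0, hth0, fun thQ hthQ hle => ?_⟩
  obtain ⟨c1, κ1, hc1, hκ1, P0, h2⟩ := h1 thQ hthQ hle
  refine ⟨c1, κ1, hc1, hκ1, P0, fun P hP R f N' H h0 z G1 G2 a1 a2 a3 => ?_⟩
  have h3 := h2 P hP R f N' H h0 z G1 G2 a1 a2 a3
  have h4 : GWk C1f f P = GWf (C1f k) f P := by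
    funext a q
    unfold GWk GWf
    rw [a3]
  rw [h4]
  exact h3

/-- bound of the moduli of the cells -/
def Q0s (k R K0 : ℕ) : ℕ := (sfac k * R) ^ 2 * 4 ^ K0

/-- no cell of the state is much heavier than the average, for moduli up to `Q0f k R κ` with
primes up to `K0f k R κ` only -/
def CELLS (K0f Q0f : ℕ → ℕ → ℝ → ℕ) (St : StTy) : Prop :=
  ∀ k R : ℕ, 2 ≤ k → 1 ≤ R → ∃ κs : ℝ, 0 < κs ∧ ∀ κ : ℝ, 0 < κ → κ ≤ κs →
  ∃ P0 : ℝ, ∀ P : ℝ, P0 ≤ P → ∀ (f : ℤ[X]) (N' : ℕ) (G : ℤ → ℝ), f.natDegree = k →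
    0 < f.leadingCoeff → Base6 f κ P N' G → St k R f κ P N' G →
    ∀ q : ℕ, 1 ≤ q → q ≤ Q0f k R κ → (∀ p : ℕ, p.Prime → p ∣ q → p ≤ K0f k R κ) →
      ∀ (z : ℤ) (V : ℕ), 0 ≤ z → z + V ≤ N' → N' ≤ 1000 * V →
      ∀ w : ZMod q, q * cmass G q w z V ≤ (1 + 1 / 8000) * V

/-- the lower bound of the local sum at one state -/
def HLOCat (C1 : ℝ) (k R K0 : ℕ) (g θ ε P : ℝ) (f : ℤ[X]) (N' : ℕ) (G : ℤ → ℝ) : Prop :=
  ∀ z0 : ℕ, TinyD f (Tst K0) (Vp k R) (q1s k R K0) z0 →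
  ∀ (h0 : ℕ) (z1 z2 : ℤ) (w : ZMod (q0s k R K0 f z0)), 0 ≤ z1 → z1 + h0 ≤ N' → 0 ≤ z2 →
    z2 + h0 ≤ N' → N' ≤ 100 * h0 →
    (h0 : ℝ) / 2 ≤ q0s k R K0 f z0 * cmass G (q0s k R K0 f z0) w z1 h0 →
    (h0 : ℝ) / 2 ≤ q0s k R K0 f z0 *
      cmass G (q0s k R K0 f z0) (w - ((f.eval (z0 : ℤ) : ℤ) : ZMod _)) z2 h0 →
  ∃ (e e' : {p // p ∈ Wst K0 g P} → ℤ → ℝ) (b b' : {p // p ∈ Wst K0 g P} → ℝ)
    (K : {p // p ∈ Wst K0 g P} → ℤ → ℤ → ℝ),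
    (∀ i, 0 ≤ b i) ∧ (∀ i, 0 ≤ b' i) ∧
    (∀ i n, e i (n + (i.1 : ℕ)) = e i n) ∧ (∀ i n, e' i (n + (i.1 : ℕ)) = e' i n) ∧
    (∀ i, ∑ x ∈ range i.1, e i (x : ℤ) ^ 2 ≤ (i.1 : ℕ) * b i ^ 2) ∧
    (∀ i, ∑ x ∈ range i.1, e' i (x : ℤ) ^ 2 ≤ (i.1 : ℕ) * b' i ^ 2) ∧
    (∑ i, (b i + b' i) ≤ P ^ (1 - g / 4)) ∧
    (∀ i, ∀ n ∈ cell (q0s k R K0 f z0) w z1 h0,
      ∀ m ∈ cell (q0s k R K0 f z0) (w - ((f.eval (z0 : ℤ) : ℤ) : ZMod _)) z2 h0,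
      1 + K i n m =
        (1 + e i n) * (1 + kN (fer f (q1s k R K0) z0) i.1 (n - m)) * (1 + e' i m)) ∧
    Real.exp (-(ε * P)) * (cmass G (q0s k R K0 f z0) w z1 h0 *
        cmass G (q0s k R K0 f z0) (w - ((f.eval (z0 : ℤ) : ℤ) : ZMod _)) z2 h0) ≤
      ‖∑ B ∈ low {p // p ∈ Wst K0 g P} ⌊θ * P / Real.log P⌋₊,
        ∑ m2 ∈ MM (Tst K0) (fun i : {p // p ∈ Wst K0 g P} => i.1) ⌊Real.exp (θ * P)⌋₊,
        FB (fer f (q1s k R K0) z0) (PPf C1 (fer f (q1s k R K0) z0) P)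
          (cell (q0s k R K0 f z0) w z1 h0)
          (cell (q0s k R K0 f z0) (w - ((f.eval (z0 : ℤ) : ℤ) : ZMod _)) z2 h0) G G K B m2‖

/-- the lower bound of the local sum; order of the constants: `g, θ`, then `κ`, then
`K0 = K0f k R κ`, then `ε`, then `P` -/
def HLOC (K0f : ℕ → ℕ → ℝ → ℕ) (C1f : ℕ → ℝ) (St : StTy) : Prop :=
  ∀ k R : ℕ, 2 ≤ k → 1 ≤ R → ∀ thQ : ℝ, 0 < thQ → thQ ≤ 1 / 16 →
  ∃ g θ κs : ℝ, 0 < g ∧ g ≤ 1 / 2 ∧ 0 < θ ∧ θ ≤ thQ / 16 ∧ 0 < κs ∧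
  ∀ κ : ℝ, 0 < κ → κ ≤ κs → ∀ ε : ℝ, 0 < ε → ∃ P0 : ℝ, ∀ P : ℝ, P0 ≤ P →
  ∀ (f : ℤ[X]) (N' : ℕ) (G : ℤ → ℝ), f.natDegree = k → 0 < f.leadingCoeff →
    (∀ g : ℤ, (∀ j : ℕ, 1 ≤ j → g ∣ f.coeff j) → g ∣ (R : ℤ)) →
    (∀ j : ℕ, |(f.coeff j : ℝ)| ≤ Real.exp (2 * k * κ * P)) →
    Base6 f κ P N' G → St k R f κ P N' G → HLOCat (C1f k) k R (K0f k R κ) g θ ε P f N' G

/-! ### numbers -/

theorem ev_rpow (C a ε : ℝ) (ha : 0 < a) (hε : 0 < ε) :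
    ∀ᶠ P : ℝ in Filter.atTop, C * P ^ (1 - a) ≤ ε * P := by
  have h1 := (tendsto_rpow_neg_atTop ha).const_mul C
  rw [mul_zero] at h1
  filter_upwards [h1.eventually (gt_mem_nhds hε), Filter.eventually_gt_atTop 0] with P h2 h3
  have h4 : P ^ (1 - a) = P ^ (-a) * P := by
    rw [sub_eq_add_neg, add_comm, Real.rpow_add h3, Real.rpow_one]
  rw [h4, ← mul_assoc]
  exact mul_le_mul_of_nonneg_right h2.le h3.le

theorem ev_log (C ε : ℝ) (hε : 0 < ε) :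
    ∀ᶠ P : ℝ in Filter.atTop, C * Real.log P ≤ ε * P := by
  have h1 : (fun P : ℝ => C * Real.log P) =o[Filter.atTop] (id : ℝ → ℝ) :=
    Real.isLittleO_log_id_atTop.const_mul_left C
  filter_upwards [h1.def hε, Filter.eventually_gt_atTop 0] with P h2 h3
  rw [id, Real.norm_eq_abs, Real.norm_eq_abs, abs_of_pos h3] at h2
  exact (le_abs_self _).trans h2

theorem ev_const (C ε : ℝ) (hε : 0 < ε) : ∀ᶠ P : ℝ in Filter.atTop, C ≤ ε * P := by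
  filter_upwards [Filter.eventually_ge_atTop (C / ε)] with P h
  rw [div_le_iff₀ hε] at h
  linarith

/-- all the numbers -/
structure NumP (g θ c κ κ0 ε thQ Q0 k P : ℝ) : Prop where
  P1 : 1 ≤ P
  lg : 1 ≤ Real.log P
  rate : 8 * k * P ^ (1 - g / 2) ≤ P ^ (1 - g / 4)
  x1 : -(g / 8 * Real.log P * (θ * P / Real.log P - 1)) + 2 * P ^ (1 - g / 8) ≤ -(g * θ / 16 * P)
  x2 : c * Real.log 2 - c * θ * P + 2 * P ^ (1 - g / 4) ≤ -(c * θ / 2 * P)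
  bs : 2 * P ^ (1 - g / 4) ≤ κ0 / 4 * P
  c1 : Real.log 2 ≤ κ0 / 4 * P
  c2 : Real.log (80000 * Q0 ^ 2) ≤ κ0 / 2 * P
  c3 : Real.log (640000 * Q0 ^ 2) ≤ min (g * θ / 16) (c * θ / 2) / 2 * P
  c4 : Real.log Q0 ≤ thQ / 16 * P
  c5 : Real.log 6400 ≤ P / 2
  c6 : Real.log 2 ≤ θ / 2 * P
  q1 : Real.log Q0 ≤ κ0 * P

theorem numP (g θ c κ κ0 ε thQ Q0 k : ℝ) (hg : 0 < g) (hg2 : g ≤ 1 / 2) (hθ : 0 < θ) (hc : 0 < c)
    (hκ0 : 0 < κ0) (hthQ : 0 < thQ) :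
    ∀ᶠ P : ℝ in Filter.atTop, NumP g θ c κ κ0 ε thQ Q0 k P := by
  have hlog : ∀ᶠ P : ℝ in Filter.atTop, 1 ≤ Real.log P :=
    Real.tendsto_log_atTop.eventually (Filter.eventually_ge_atTop 1)
  have hr : ∀ᶠ P : ℝ in Filter.atTop, 8 * k ≤ P ^ (g / 4) :=
    (tendsto_rpow_atTop (by positivity)).eventually (Filter.eventually_ge_atTop _)
  have hgθ : 0 < g * θ := mul_pos hg hθ
  have hcθ : 0 < c * θ := mul_pos hc hθ
  filter_upwards [hlog, hr, Filter.eventually_ge_atTop 1,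
    ev_rpow 2 (g / 8) (g * θ / 32) (by positivity) (by positivity),
    ev_log (g / 8) (g * θ / 32) (by positivity),
    ev_rpow 2 (g / 4) (c * θ / 4) (by positivity) (by positivity),
    ev_const (c * Real.log 2) (c * θ / 4) (by positivity),
    ev_rpow 2 (g / 4) (κ0 / 4) (by positivity) (by positivity),
    ev_const (Real.log 2) (κ0 / 4) (by positivity),
    ev_const (Real.log (80000 * Q0 ^ 2)) (κ0 / 2) (by positivity),
    ev_const (Real.log (640000 * Q0 ^ 2)) (min (g * θ / 16) (c * θ / 2) / 2) (by positivity),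
    ev_const (Real.log Q0) (thQ / 16) (by positivity),
    ev_const (Real.log 6400) (1 / 2) (by norm_num),
    ev_const (Real.log 2) (θ / 2) (by positivity),
    ev_const (Real.log Q0) κ0 hκ0] with P h1 h2 h3 h4 h5 h6 h7 h8 h9 h10 h11 h12 h13 h14 h15
  have hP : 0 < P := by linarith
  refine ⟨h3, h1, ?_, ?_, ?_, h8, h9, h10, h11, h12, by linarith, h14, h15⟩
  · have e1 : P ^ (1 - g / 4) = P ^ (g / 4) * P ^ (1 - g / 2) := by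
      rw [← Real.rpow_add hP]
      congr 1
      ring
    rw [e1]
    exact mul_le_mul_of_nonneg_right h2 (Real.rpow_nonneg hP.le _)
  · have hl : Real.log P ≠ 0 := by linarith
    have e1 : g / 8 * Real.log P * (θ * P / Real.log P - 1) =
        g * θ / 8 * P - g / 8 * Real.log P := by
      field_simp
    rw [e1]
    linarith
  · linarith

/-! ### the sites -/

theorem mem_Tst {K0 p : ℕ} : p ∈ Tst K0 ↔ p.Prime ∧ p ≤ K0 := by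
  unfold Tst
  rw [mem_filter, mem_range, Nat.lt_succ_iff, and_comm]

theorem mem_Wst {K0 : ℕ} {g P : ℝ} (hP : 0 ≤ P) {p : ℕ} :
    p ∈ Wst K0 g P ↔ p.Prime ∧ K0 < p ∧ (p : ℝ) ≤ P ^ (2 - g) := by
  unfold Wst
  rw [mem_filter, mem_range, Nat.lt_succ_iff, Nat.le_floor_iff (Real.rpow_nonneg hP _)]
  tauto

theorem sum_rho (k K0 : ℕ) (g P : ℝ) (hP : 1 ≤ P) :
    ∑ i : {p // p ∈ Wst K0 g P}, 4 * (k : ℝ) / Real.sqrt ((i.1 : ℕ) : ℝ) ≤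
      8 * k * P ^ (1 - g / 2) := by
  have hP0 : 0 ≤ P := by linarith
  have h1 := H944.sum_sqrt_le (fun i : {p // p ∈ Wst K0 g P} => (i.1 : ℕ))
    Subtype.val_injective (fun i => ((mem_Wst hP0).1 i.2).1.one_lt.le) (P ^ (1 - g / 2))
    (Real.rpow_nonneg hP0 _) (fun i => by
      refine ((mem_Wst hP0).1 i.2).2.2.trans (le_of_eq ?_)
      rw [← Real.rpow_natCast, ← Real.rpow_mul hP0]
      congr 1
      push_cast
      ring)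
  have h2 : ∑ i : {p // p ∈ Wst K0 g P}, 4 * (k : ℝ) / Real.sqrt ((i.1 : ℕ) : ℝ) =
      4 * k * ∑ i : {p // p ∈ Wst K0 g P}, 1 / Real.sqrt ((i.1 : ℕ) : ℝ) := by
    rw [mul_sum]
    refine sum_congr rfl fun i _ => ?_
    ring
  rw [h2]
  calc 4 * (k : ℝ) * ∑ i : {p // p ∈ Wst K0 g P}, 1 / Real.sqrt ((i.1 : ℕ) : ℝ)
      ≤ 4 * k * (2 * P ^ (1 - g / 2)) := mul_le_mul_of_nonneg_left h1 (by positivity)
    _ = _ := by ring

/-- the cross terms: first part of the error -/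
theorem x1_le {g θ P S : ℝ} (hg : 0 < g) (hP : 1 ≤ P) (hlg : 1 ≤ Real.log P)
    (hS : S ≤ 2 * P ^ (1 - g / 4))
    (hx : -(g / 8 * Real.log P * (θ * P / Real.log P - 1)) + 2 * P ^ (1 - g / 8) ≤
      -(g * θ / 16 * P)) :
    (P ^ (g / 8))⁻¹ ^ ⌊θ * P / Real.log P⌋₊ * Real.exp (P ^ (g / 8) * S) ≤
      Real.exp (-(g * θ / 16 * P)) := by
  have hP0 : 0 < P := by linarith
  have e1 : (P ^ (g / 8))⁻¹ = Real.exp (-(g / 8 * Real.log P)) := by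
    rw [Real.exp_neg, Real.rpow_def_of_pos hP0, mul_comm (Real.log P)]
  rw [e1, ← Real.exp_nat_mul, ← Real.exp_add, Real.exp_le_exp]
  refine le_trans ?_ hx
  have h1 : θ * P / Real.log P - 1 ≤ (⌊θ * P / Real.log P⌋₊ : ℝ) :=
    (Nat.sub_one_lt_floor _).le
  have h2 : (g / 8 * Real.log P) * (θ * P / Real.log P - 1) ≤
      (g / 8 * Real.log P) * (⌊θ * P / Real.log P⌋₊ : ℝ) :=
    mul_le_mul_of_nonneg_left h1 (by positivity)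
  have h3 : P ^ (g / 8) * S ≤ 2 * P ^ (1 - g / 8) := by
    calc P ^ (g / 8) * S ≤ P ^ (g / 8) * (2 * P ^ (1 - g / 4)) :=
          mul_le_mul_of_nonneg_left hS (Real.rpow_nonneg hP0.le _)
      _ = 2 * (P ^ (g / 8) * P ^ (1 - g / 4)) := by ring
      _ = 2 * P ^ (1 - g / 8) := by
          rw [← Real.rpow_add hP0]
          congr 2
          ring
  nlinarith

/-- the cross terms: second part of the error -/
theorem x2_le {g θ c P S : ℝ} (hc : 0 < c) (hc6 : Real.log 2 ≤ θ / 2 * P) (hθ : 0 < θ)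
    (hP : 1 ≤ P) (hS : S ≤ 2 * P ^ (1 - g / 4))
    (hx : c * Real.log 2 - c * θ * P + 2 * P ^ (1 - g / 4) ≤ -(c * θ / 2 * P)) :
    (⌊Real.exp (θ * P)⌋₊ : ℝ) ^ (-c) * Real.exp S ≤ Real.exp (-(c * θ / 2 * P)) := by
  have hP0 : 0 < P := by linarith
  have h2 : (2 : ℝ) ≤ Real.exp (θ * P) := by
    rw [← Real.log_le_iff_le_exp (by norm_num)]
    have : 0 < θ * P := mul_pos hθ hP0
    linarith
  have h3 : Real.exp (θ * P) / 2 ≤ (⌊Real.exp (θ * P)⌋₊ : ℝ) := by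
    have := (Nat.sub_one_lt_floor (Real.exp (θ * P))).le
    linarith
  have h4 : (⌊Real.exp (θ * P)⌋₊ : ℝ) ^ (-c) ≤ (Real.exp (θ * P) / 2) ^ (-c) :=
    Real.rpow_le_rpow_of_nonpos (by positivity) h3 (by linarith)
  have h5 : (Real.exp (θ * P) / 2) ^ (-c) = Real.exp (c * Real.log 2 - c * θ * P) := by
    rw [Real.rpow_def_of_pos (by positivity), Real.log_div (Real.exp_pos _).ne' (by norm_num),
      Real.log_exp]
    congr 1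
    ring
  rw [h5] at h4
  refine (mul_le_mul_of_nonneg_right h4 (Real.exp_pos _).le).trans ?_
  rw [← Real.exp_add, Real.exp_le_exp]
  linarith

theorem mass_num {N' h0 q Q0 m1 m2 : ℝ} (hN0 : 0 ≤ N') (hN : N' ≤ 100 * h0) (hq : 1 ≤ q)
    (hqQ : q ≤ Q0) (h1 : h0 / 2 ≤ q * m1) (h2 : h0 / 2 ≤ q * m2) :
    N' ^ 2 / (40000 * Q0 ^ 2) ≤ m1 * m2 := by
  have hQ : 1 ≤ Q0 := hq.trans hqQ
  have hml : ∀ m : ℝ, h0 / 2 ≤ q * m → N' / (200 * Q0) ≤ m := by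
    intro m hm
    have h1 : N' / 200 ≤ q * m := by linarith
    have h2 : 0 ≤ m := by
      by_contra hcon
      rw [not_le] at hcon
      have : q * m < 0 := mul_neg_of_pos_of_neg (by linarith) hcon
      linarith
    have h3 : q * m ≤ Q0 * m := mul_le_mul_of_nonneg_right hqQ h2
    rw [div_le_iff₀ (by positivity)]
    linarith
  have h3 : N' ^ 2 / (40000 * Q0 ^ 2) = N' / (200 * Q0) * (N' / (200 * Q0)) := by
    field_simp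
    ring
  rw [h3]
  exact mul_le_mul (hml m1 h1) (hml m2 h2) (by positivity) (le_trans (by positivity) (hml m1 h1))

theorem err_num {N' Q0 κ β ε P X1 X2 L0 : ℝ} (hP : 0 ≤ P) (hQ : 1 ≤ Q0)
    (hκ : κ ≤ β / 8) (hε : ε ≤ β / 4) (hc3 : 640000 * Q0 ^ 2 ≤ Real.exp (β / 2 * P))
    (hX : X1 + X2 ≤ 2 * Real.exp (-(β * P))) (hX0 : 0 ≤ X1 + X2)
    (hL0 : Real.exp (-(ε * P)) * (N' ^ 2 / (80000 * Q0 ^ 2)) ≤ L0) :
    4 * N' ^ 2 * Real.exp (κ * P) ^ 2 * (X1 + X2) ≤ L0 := by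
  refine le_trans ?_ hL0
  have hA2 : Real.exp (κ * P) ^ 2 ≤ Real.exp (β / 4 * P) := by
    rw [← Real.exp_nat_mul, Real.exp_le_exp]
    push_cast
    nlinarith
  have h2 : Real.exp (-(β / 4 * P)) ≤ Real.exp (-(ε * P)) :=
    Real.exp_le_exp.2 (neg_le_neg (mul_le_mul_of_nonneg_right hε hP))
  have h3 : Real.exp (β / 4 * P) * Real.exp (-(β * P)) =
      Real.exp (-(β / 4 * P)) * (Real.exp (β / 2 * P))⁻¹ := by
    rw [← Real.exp_neg, ← Real.exp_add, ← Real.exp_add]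
    congr 1
    ring
  have h4 : (Real.exp (β / 2 * P))⁻¹ ≤ (640000 * Q0 ^ 2)⁻¹ := inv_anti₀ (by positivity) hc3
  calc 4 * N' ^ 2 * Real.exp (κ * P) ^ 2 * (X1 + X2)
      ≤ 4 * N' ^ 2 * Real.exp (β / 4 * P) * (2 * Real.exp (-(β * P))) :=
        mul_le_mul (mul_le_mul_of_nonneg_left hA2 (by positivity)) hX hX0 (by positivity)
    _ = 8 * N' ^ 2 * (Real.exp (β / 4 * P) * Real.exp (-(β * P))) := by ring
    _ = 8 * N' ^ 2 * (Real.exp (-(β / 4 * P)) * (Real.exp (β / 2 * P))⁻¹) := by rw [h3]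
    _ ≤ 8 * N' ^ 2 * (Real.exp (-(ε * P)) * (640000 * Q0 ^ 2)⁻¹) := by
        apply mul_le_mul_of_nonneg_left _ (by positivity)
        exact mul_le_mul h2 h4 (by positivity) (by positivity)
    _ = Real.exp (-(ε * P)) * (N' ^ 2 / (80000 * Q0 ^ 2)) := by
        field_simp
        ring

theorem low_num {N' Q0 κ0 ε P D q L0 : ℝ} (hP : 0 ≤ P) (hQ : 1 ≤ Q0) (hε : ε ≤ κ0 / 4)
    (hc2 : 80000 * Q0 ^ 2 ≤ Real.exp (κ0 / 2 * P)) (hq : 1 ≤ q)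
    (hD : Real.exp (-(ε * P)) ≤ D)
    (hL0 : Real.exp (-(ε * P)) * (N' ^ 2 / (80000 * Q0 ^ 2)) ≤ L0) :
    Real.exp (-(κ0 * P)) * N' ^ 2 ≤ D * (q * L0) := by
  have hL00 : 0 ≤ L0 := le_trans (by positivity) hL0
  have h2 : L0 ≤ q * L0 := le_mul_of_one_le_left hL00 hq
  have h4 : Real.exp (-(ε * P)) * L0 ≤ D * (q * L0) :=
    mul_le_mul hD h2 hL00 (le_trans (Real.exp_pos _).le hD)
  refine le_trans ?_ h4
  have h5 : Real.exp (-(ε * P)) * (Real.exp (-(ε * P)) * (N' ^ 2 / (80000 * Q0 ^ 2))) ≤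
      Real.exp (-(ε * P)) * L0 := mul_le_mul_of_nonneg_left hL0 (Real.exp_pos _).le
  refine le_trans ?_ h5
  have h6 : Real.exp (-(κ0 / 2 * P)) ≤ Real.exp (-(ε * P)) * Real.exp (-(ε * P)) := by
    rw [← Real.exp_add, Real.exp_le_exp]
    nlinarith
  have h7 : Real.exp (-(κ0 * P)) = Real.exp (-(κ0 / 2 * P)) * (Real.exp (κ0 / 2 * P))⁻¹ := by
    rw [← Real.exp_neg, ← Real.exp_add]
    congr 1
    ring
  have h8 : (Real.exp (κ0 / 2 * P))⁻¹ ≤ (80000 * Q0 ^ 2)⁻¹ := inv_anti₀ (by positivity) hc2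
  calc Real.exp (-(κ0 * P)) * N' ^ 2
      = Real.exp (-(κ0 / 2 * P)) * (Real.exp (κ0 / 2 * P))⁻¹ * N' ^ 2 := by rw [h7]
    _ ≤ Real.exp (-(ε * P)) * Real.exp (-(ε * P)) * (80000 * Q0 ^ 2)⁻¹ * N' ^ 2 := by
        apply mul_le_mul_of_nonneg_right _ (by positivity)
        exact mul_le_mul h6 h8 (by positivity) (by positivity)
    _ = Real.exp (-(ε * P)) * (Real.exp (-(ε * P)) * (N' ^ 2 / (80000 * Q0 ^ 2))) := by
        field_simp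

theorem sq_num {N' κ κ0 P B : ℝ} (hN : 0 ≤ N') (hP : 0 ≤ P) (hκ0 : 0 ≤ κ0) (hκ : κ ≤ κ0 / 8)
    (hB : 2 * B ≤ κ0 / 4 * P) (hc : Real.log 2 ≤ κ0 / 4 * P) :
    Real.exp (κ * P) ^ 2 * (2 * N' * Real.exp (2 * B)) ≤ Real.exp (κ0 * P) * N' := by
  have hk1 : Real.exp (κ * P) ^ 2 ≤ Real.exp (κ0 / 4 * P) := by
    rw [← Real.exp_nat_mul, Real.exp_le_exp]
    push_cast
    nlinarith
  have hk2 : (2 : ℝ) ≤ Real.exp (κ0 / 4 * P) := by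
    rw [← Real.log_le_iff_le_exp (by norm_num)]
    exact hc
  have hk3 : Real.exp (κ0 / 4 * P) * Real.exp (κ0 / 4 * P) * Real.exp (κ0 / 4 * P) ≤
      Real.exp (κ0 * P) := by
    rw [← Real.exp_add, ← Real.exp_add, Real.exp_le_exp]
    nlinarith
  have hk4 : Real.exp (2 * B) ≤ Real.exp (κ0 / 4 * P) := Real.exp_le_exp.2 hB
  calc Real.exp (κ * P) ^ 2 * (2 * N' * Real.exp (2 * B))
      = Real.exp (κ * P) ^ 2 * 2 * Real.exp (2 * B) * N' := by ring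
    _ ≤ Real.exp (κ0 / 4 * P) * Real.exp (κ0 / 4 * P) * Real.exp (κ0 / 4 * P) * N' := by
        gcongr
    _ ≤ Real.exp (κ0 * P) * N' := mul_le_mul_of_nonneg_right hk3 hN

/-- sizes of products of sites -/
theorem prod_num {K0 : ℕ} {g θ P : ℝ} (hg : 0 < g) (hP : 1 ≤ P) (hlg : 0 < Real.log P)
    (hθ : 0 < θ) (B : Finset {p // p ∈ Wst K0 g P}) (hBc : B.card ≤ ⌊θ * P / Real.log P⌋₊) :
    ((∏ i ∈ B, (i.1 : ℕ) : ℕ) : ℝ) ≤ Real.exp (2 * θ * P) := by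
  have hP0 : 0 < P := by linarith
  have h1 := H944.prod_le (fun i : {p // p ∈ Wst K0 g P} => (i.1 : ℕ)) (Real.log P) hlg.le
    (fun i => by
      refine (((mem_Wst hP0.le).1 i.2).2.2).trans ?_
      rw [Real.rpow_def_of_pos hP0, Real.exp_le_exp]
      nlinarith) _ B hBc
  refine h1.trans (Real.exp_le_exp.2 ?_)
  have h2 : (⌊θ * P / Real.log P⌋₊ : ℝ) ≤ θ * P / Real.log P :=
    Nat.floor_le (by positivity)
  calc 2 * Real.log P * (⌊θ * P / Real.log P⌋₊ : ℝ) ≤ 2 * Real.log P * (θ * P / Real.log P) :=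
        mul_le_mul_of_nonneg_left h2 (by positivity)
    _ = 2 * θ * P := by
        field_simp

theorem cell_sub {q : ℕ} {w : ZMod q} {z : ℤ} {V N' : ℕ} (hz : 0 ≤ z) (hzV : z + V ≤ N') :
    cell q w z V ⊆ Icc (1 : ℤ) N' := by
  intro n hn
  unfold cell at hn
  rw [mem_filter, mem_Ioc] at hn
  rw [mem_Icc]
  omega

theorem cell_cl {q : ℕ} {w : ZMod q} {s : ℤ} {z z' : ℤ} {V V' : ℕ} (n : ℤ)
    (hn : n ∈ cell q w z V) (m : ℤ) (hm : m ∈ cell q (w - (s : ZMod q)) z' V') :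
    (q : ℤ) ∣ (n - m) - s := by
  unfold cell at hn hm
  rw [mem_filter] at hn hm
  rw [← ZMod.intCast_zmod_eq_zero_iff_dvd]
  push_cast
  rw [hn.2, hm.2]
  ring

/-- the hypotheses of the seam at the sites of the power version -/
theorem seamH_of {C1 : ℝ} (hC1 : 2 ≤ C1) {k R K0 : ℕ} {kap : ℕ → ℕ → ℝ} {f : ℤ[X]}
    {z0 N' : ℕ} {G : ℤ → ℝ} {g θ κ thQ P : ℝ} (hg : 0 < g) (hP1 : 1 ≤ P)
    (hlg : 0 < Real.log P) (hθ0 : 0 < θ) (hθ1 : θ ≤ thQ / 16) (hthQ : 0 < thQ)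
    (hthQ16 : thQ ≤ 1 / 16) (hkap0 : ∀ p j, 0 ≤ kap p j)
    (hfk : f.natDegree = k)
    (hT : TinyD f (Tst K0) (Vp k R) (q1s k R K0) z0)
    {PP : Finset ℕ} (hPPe : PP = PPf C1 (fer f (q1s k R K0) z0) P)
    (hNS : NS (fer f (q1s k R K0) z0) PP)
    (hnT : ∀ p : ℕ, p.Prime → p ∉ Tst K0 → k < p ∧
      (∃ j : ℕ, 1 ≤ j ∧ ¬ (p : ℤ) ∣ f.coeff j) ∧
      ∃ j : ℕ, 1 ≤ j ∧ ¬ (p : ℤ) ∣ (fer f (q1s k R K0) z0).coeff j)
    (hGam : ∀ (q : ℕ) (a : ℤ), 1 ≤ q → IsCoprime a (q : ℤ) →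
      ‖GamN (fer f (q1s k R K0) z0) PP a q‖ ≤ kapProd (kwS k (Tst K0) PP kap) q)
    (hρ : ∀ p : ℕ, p.Prime → p ∉ Tst K0 → kwS k (Tst K0) PP kap p 1 ≤ 4 * k / Real.sqrt p)
    {b b' : {p // p ∈ Wst K0 g P} → ℝ} {e e' : {p // p ∈ Wst K0 g P} → ℤ → ℝ}
    (hb0 : ∀ i, 0 ≤ b i) (hb0' : ∀ i, 0 ≤ b' i)
    (hper : ∀ i n, e i (n + (i.1 : ℕ)) = e i n) (hper' : ∀ i n, e' i (n + (i.1 : ℕ)) = e' i n)
    (he : ∀ i, ∑ x ∈ range i.1, e i (x : ℤ) ^ 2 ≤ (i.1 : ℕ) * b i ^ 2)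
    (he' : ∀ i, ∑ x ∈ range i.1, e' i (x : ℤ) ^ 2 ≤ (i.1 : ℕ) * b' i ^ 2)
    {S1 S2 : Finset ℤ} (hS1I : S1 ⊆ Icc (1 : ℤ) N') (hS2I : S2 ⊆ Icc (1 : ℤ) N')
    (habs : ∀ n : ℤ, |G n| ≤ Real.exp (κ * P)) (hlo : Real.exp (P / 2) ≤ N') :
    SeamH (fer f (q1s k R K0) z0) PP (Tst K0)
      (fun i : {p // p ∈ Wst K0 g P} => (i.1 : ℕ)) (kwS k (Tst K0) PP kap)
      (fun i => 4 * (k : ℝ) / Real.sqrt ((i.1 : ℕ) : ℝ)) b b' e e' S1 S2 G G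
      (Real.exp (κ * P)) N' ⌊Real.exp (thQ * P)⌋₊ ⌊θ * P / Real.log P⌋₊ := by
  have hP0 : 0 < P := by linarith
  have hWT : ∀ i : {p // p ∈ Wst K0 g P}, (i.1 : ℕ) ∉ Tst K0 := fun i hi => by
    have := (mem_Tst.1 hi).2
    have := ((mem_Wst hP0.le).1 i.2).2.1
    omega
  have hWp : ∀ i : {p // p ∈ Wst K0 g P}, (i.1 : ℕ).Prime := fun i => ((mem_Wst hP0.le).1 i.2).1
  have hdeg : (fer f (q1s k R K0) (z0 : ℤ)).natDegree = k := by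
    rw [fer_natDegree f _ hT.q1_pos, hfk]
  have hWPP : ∀ i : {p // p ∈ Wst K0 g P}, (i.1 : ℕ) ∈ PP := by
    intro i
    obtain ⟨a1, a2, a3⟩ := hnT i.1 (hWp i) (hWT i)
    rw [hPPe, mem_PPf]
    refine ⟨hWp i, by rw [hdeg]; exact a1, a3,
      Nat.le_floor ((((mem_Wst hP0.le).1 i.2).2.2).trans ?_)⟩
    exact Real.rpow_le_rpow_of_exponent_le hP1 (by linarith)
  refine ⟨hNS, Subtype.val_injective, hWPP, fun p j => kwS_nonneg k _ _ hkap0 p j, hGam,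
    fun i => hρ i.1 (hWp i) (hWT i), hb0, hb0', hper, hper', he, he', hS1I, hS2I,
    (Real.exp_pos _).le, fun n _ => habs n, fun n _ => habs n, ?_, ?_, ?_⟩
  · apply Nat.le_floor
    rw [Nat.cast_one]
    exact Real.one_le_exp (by positivity)
  · have h1 : ((⌊Real.exp (thQ * P)⌋₊ : ℝ)) ^ 4 ≤ N' := by
      refine le_trans (pow_le_pow_left₀ (Nat.cast_nonneg _) (Nat.floor_le (Real.exp_pos _).le) 4) ?_
      refine le_trans ?_ hlo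
      rw [← Real.exp_nat_mul, Real.exp_le_exp]
      push_cast
      nlinarith
    exact_mod_cast h1
  · intro B hBc
    have h1 := (prod_num hg hP1 hlg hθ0 B hBc).trans
      (le_trans (Real.exp_le_exp.2 (by nlinarith)) hlo)
    exact_mod_cast h1

/-- the assembly at one state, after the choice of the cells -/
theorem lower_at {C1 : ℝ} {k R K0 Q0 : ℕ} {c : ℝ} {kap : ℕ → ℕ → ℝ}
    {f : ℤ[X]} {z0 N' : ℕ} {G : ℤ → ℝ} {g θ κ κ0 β ε thQ P : ℝ} (hc0 : 0 < c) (hg : 0 < g)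
    (hθ0 : 0 < θ) (hθ1 : θ ≤ thQ / 16) (hthQ : 0 < thQ) (hthQ16 : thQ ≤ 1 / 16)
    (hκ0 : 0 < κ0) (hβ : β = min (g * θ / 16) (c * θ / 2))
    (hκ3 : κ ≤ κ0 / 8) (hκ5 : κ ≤ β / 8) (hε1 : ε ≤ κ0 / 4) (hε2 : ε ≤ β / 4)
    (N : NumP g θ c κ κ0 ε thQ Q0 k P)
    (hfk : f.natDegree = k)
    (hT : TinyD f (Tst K0) (Vp k R) (q1s k R K0) z0) (hz0 : z0 ≤ q1s k R K0)
    (hq0le : q0s k R K0 f z0 ≤ Q0)
    (hdn : Real.exp (-(ε * P)) ≤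
      ∏ p ∈ PPf C1 (fer f (q1s k R K0) z0) P, dns (fer f (q1s k R K0) z0) p)
    {PP : Finset ℕ} (hPPe : PP = PPf C1 (fer f (q1s k R K0) z0) P)
    (H1 : ∀ {b b' : {p // p ∈ Wst K0 g P} → ℝ} {e e' : {p // p ∈ Wst K0 g P} → ℤ → ℝ},
      (∀ i, 0 ≤ b i) → (∀ i, 0 ≤ b' i) →
      (∀ i n, e i (n + (i.1 : ℕ)) = e i n) → (∀ i n, e' i (n + (i.1 : ℕ)) = e' i n) →
      (∀ i, ∑ x ∈ range i.1, e i (x : ℤ) ^ 2 ≤ (i.1 : ℕ) * b i ^ 2) →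
      (∀ i, ∑ x ∈ range i.1, e' i (x : ℤ) ^ 2 ≤ (i.1 : ℕ) * b' i ^ 2) →
      ∀ {S1 S2 : Finset ℤ}, S1 ⊆ Icc (1 : ℤ) N' → S2 ⊆ Icc (1 : ℤ) N' →
      SeamH (fer f (q1s k R K0) z0) PP (Tst K0)
        (fun i : {p // p ∈ Wst K0 g P} => (i.1 : ℕ)) (kwS k (Tst K0) PP kap)
        (fun i => 4 * (k : ℝ) / Real.sqrt ((i.1 : ℕ) : ℝ)) b b' e e' S1 S2 G G
        (Real.exp (κ * P)) N' ⌊Real.exp (thQ * P)⌋₊ ⌊θ * P / Real.log P⌋₊)
    (hkw : ∀ m : ℕ, 1 ≤ m → (∀ p ∈ Tst K0, ¬ p ∣ m) →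
          kapProd (kwS k (Tst K0) PP kap) m ≤ (m : ℝ) ^ (-c))
    (hPPm : ∀ p ∈ PP, p.Prime ∧ p ∉ Tst K0)
    {Hw h0 : ℕ} (h8 : 8 * (Hw + h0) ≤ N') (h16 : N' ≤ 16 * Hw) (hh0 : 1 ≤ h0)
    (hh : 2 * h0 ≤ Hw) (hzN : 3 * Hw + 2 * h0 ≤ N') (hN100 : N' ≤ 100 * h0)
    (w : ZMod (q0s k R K0 f z0))
    (hw1 : (h0 : ℝ) / 2 ≤ q0s k R K0 f z0 *
      cmass G (q0s k R K0 f z0) w ((3 * Hw + h0 : ℕ) : ℤ) h0)
    (hw2 : (h0 : ℝ) / 2 ≤ q0s k R K0 f z0 *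
      cmass G (q0s k R K0 f z0) (w - ((f.eval (z0 : ℤ) : ℤ) : ZMod _)) 0 h0)
    (e e' : {p // p ∈ Wst K0 g P} → ℤ → ℝ) (b b' : {p // p ∈ Wst K0 g P} → ℝ)
    (K : {p // p ∈ Wst K0 g P} → ℤ → ℤ → ℝ)
    (hb0 : ∀ i, 0 ≤ b i) (hb0' : ∀ i, 0 ≤ b' i)
    (hper : ∀ i n, e i (n + (i.1 : ℕ)) = e i n) (hper' : ∀ i n, e' i (n + (i.1 : ℕ)) = e' i n)
    (he : ∀ i, ∑ x ∈ range i.1, e i (x : ℤ) ^ 2 ≤ (i.1 : ℕ) * b i ^ 2)
    (he' : ∀ i, ∑ x ∈ range i.1, e' i (x : ℤ) ^ 2 ≤ (i.1 : ℕ) * b' i ^ 2)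
    (hbs : ∑ i, (b i + b' i) ≤ P ^ (1 - g / 4))
    (hK : ∀ i, ∀ n ∈ cell (q0s k R K0 f z0) w ((3 * Hw + h0 : ℕ) : ℤ) h0,
      ∀ m ∈ cell (q0s k R K0 f z0) (w - ((f.eval (z0 : ℤ) : ℤ) : ZMod _)) 0 h0,
      1 + K i n m =
        (1 + e i n) * (1 + kN (fer f (q1s k R K0) z0) i.1 (n - m)) * (1 + e' i m))
    (hlow : Real.exp (-(ε * P)) * (cmass G (q0s k R K0 f z0) w ((3 * Hw + h0 : ℕ) : ℤ) h0 *
        cmass G (q0s k R K0 f z0) (w - ((f.eval (z0 : ℤ) : ℤ) : ZMod _)) 0 h0) ≤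
      ‖∑ B ∈ low {p // p ∈ Wst K0 g P} ⌊θ * P / Real.log P⌋₊,
        ∑ m2 ∈ MM (Tst K0) (fun i : {p // p ∈ Wst K0 g P} => i.1) ⌊Real.exp (θ * P)⌋₊,
        FB (fer f (q1s k R K0) z0) (PPf C1 (fer f (q1s k R K0) z0) P)
          (cell (q0s k R K0 f z0) w ((3 * Hw + h0 : ℕ) : ℤ) h0)
          (cell (q0s k R K0 f z0) (w - ((f.eval (z0 : ℤ) : ℤ) : ZMod _)) 0 h0) G G K B m2‖) :
    LOWat (GWf C1) κ0 thQ P f N' G := by
  classical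
  have hP1 : 1 ≤ P := N.P1
  have hP0 : 0 < P := by linarith
  have hlg : 0 < Real.log P := by have := N.lg; linarith
  have hq1pos := hT.q1_pos
  have hq0pos : 1 ≤ q0s k R K0 f z0 := qnul_pos (z0 : ℤ) hq1pos
  have hQ01 : (1 : ℝ) ≤ Q0 := by exact_mod_cast hq0pos.trans hq0le
  have hq1le : q1s k R K0 ≤ Q0 := by
    refine le_trans ?_ hq0le
    unfold q0s qnul
    apply Nat.le_mul_of_pos_right
    rw [Int.gcd_pos_iff]
    right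
    have : q1s k R K0 ≠ 0 := by omega
    exact_mod_cast this
  have hNr0 : (0 : ℝ) ≤ N' := Nat.cast_nonneg _
  have hmm := mass_num (N' := (N' : ℝ)) (Q0 := (Q0 : ℝ)) hNr0 (by exact_mod_cast hN100)
    (by exact_mod_cast hq0pos) (by exact_mod_cast hq0le) hw1 hw2
  obtain ⟨m1, hm1⟩ : ∃ x : ℝ, x = cmass G (q0s k R K0 f z0) w ((3 * Hw + h0 : ℕ) : ℤ) h0 :=
    ⟨_, rfl⟩
  obtain ⟨m2, hm2⟩ : ∃ x : ℝ, x = cmass G (q0s k R K0 f z0)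
    (w - ((f.eval (z0 : ℤ) : ℤ) : ZMod _)) 0 h0 := ⟨_, rfl⟩
  rw [← hm1, ← hm2] at hmm hlow
  obtain ⟨L0, hL0⟩ : ∃ x : ℝ, x = Real.exp (-(ε * P)) / 2 * (m1 * m2) := ⟨_, rfl⟩
  have hL0l : Real.exp (-(ε * P)) * ((N' : ℝ) ^ 2 / (80000 * Q0 ^ 2)) ≤ L0 := by
    rw [hL0]
    have h1 : Real.exp (-(ε * P)) * ((N' : ℝ) ^ 2 / (80000 * Q0 ^ 2)) =
        Real.exp (-(ε * P)) / 2 * ((N' : ℝ) ^ 2 / (40000 * Q0 ^ 2)) := by
      field_simp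
      ring
    rw [h1]
    exact mul_le_mul_of_nonneg_left hmm (by positivity)
  -- the sums of the rates
  have hsρ := (sum_rho k K0 g P hP1).trans N.rate
  have hS : ∑ i : {p // p ∈ Wst K0 g P}, (4 * (k : ℝ) / Real.sqrt ((i.1 : ℕ) : ℝ) + b i + b' i) ≤
      2 * P ^ (1 - g / 4) := by
    have h1 : ∑ i : {p // p ∈ Wst K0 g P}, (4 * (k : ℝ) / Real.sqrt ((i.1 : ℕ) : ℝ) + b i + b' i) =
        ∑ i : {p // p ∈ Wst K0 g P}, 4 * (k : ℝ) / Real.sqrt ((i.1 : ℕ) : ℝ) +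
          ∑ i, (b i + b' i) := by
      rw [← sum_add_distrib]
      exact sum_congr rfl fun i _ => by ring
    rw [h1]
    linarith
  have hsb : ∑ i, b i ≤ P ^ (1 - g / 4) :=
    (sum_le_sum fun i _ => by have := hb0' i; linarith).trans hbs
  have hsb' : ∑ i, b' i ≤ P ^ (1 - g / 4) :=
    (sum_le_sum fun i _ => by have := hb0 i; linarith).trans hbs
  have hβ1 : β ≤ g * θ / 16 := by rw [hβ]; exact min_le_left _ _
  have hβ2 : β ≤ c * θ / 2 := by rw [hβ]; exact min_le_right _ _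
  have hx1 := (x1_le hg hP1 N.lg hS N.x1).trans
    (Real.exp_le_exp.2 (neg_le_neg (mul_le_mul_of_nonneg_right hβ1 hP0.le)))
  have hx2 := (x2_le hc0 N.c6 hθ0 hP1 hS N.x2).trans
    (Real.exp_le_exp.2 (neg_le_neg (mul_le_mul_of_nonneg_right hβ2 hP0.le)))
  have hc3 : 640000 * (Q0 : ℝ) ^ 2 ≤ Real.exp (β / 2 * P) := by
    rw [← Real.log_le_iff_le_exp (by positivity)]
    have := N.c3
    rw [← hβ] at this
    exact this
  have hc2 : 80000 * (Q0 : ℝ) ^ 2 ≤ Real.exp (κ0 / 2 * P) := by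
    rw [← Real.log_le_iff_le_exp (by positivity)]
    exact N.c2
  have hH := H1 hb0 hb0' hper hper' he he'
    (cell_sub (w := w) (z := ((3 * Hw + h0 : ℕ) : ℤ)) (V := h0) (N' := N') (by omega) (by omega))
    (cell_sub (w := w - ((f.eval (z0 : ℤ) : ℤ) : ZMod _)) (z := 0) (V := h0) (N' := N') (by omega)
      (by omega))
  have hkw1 : ∀ m2 : ℕ, 1 ≤ m2 → m2 ≤ ⌊Real.exp (thQ * P)⌋₊ → (∀ p ∈ Tst K0, ¬ p ∣ m2) →
      (∀ i : {p // p ∈ Wst K0 g P}, ¬ (i.1 : ℕ) ∣ m2) →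
      kapProd (kwS k (Tst K0) PP kap) m2 ≤ 1 := by
    intro m2 hm2 _ hmT _
    refine (hkw m2 hm2 hmT).trans ?_
    exact Real.rpow_le_one_of_one_le_of_nonpos (by exact_mod_cast hm2) (by linarith)
  have hkwδ : ∀ m2 : ℕ, 1 ≤ m2 → m2 ≤ ⌊Real.exp (thQ * P)⌋₊ → (∀ p ∈ Tst K0, ¬ p ∣ m2) →
      (∀ i : {p // p ∈ Wst K0 g P}, ¬ (i.1 : ℕ) ∣ m2) → ⌊Real.exp (θ * P)⌋₊ < m2 →
      kapProd (kwS k (Tst K0) PP kap) m2 ≤ (⌊Real.exp (θ * P)⌋₊ : ℝ) ^ (-c) := by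
    intro m2 hm2 _ hmT _ hM
    refine (hkw m2 hm2 hmT).trans ?_
    apply Real.rpow_le_rpow_of_nonpos
    · have : 1 ≤ ⌊Real.exp (θ * P)⌋₊ := by
        apply Nat.le_floor
        rw [Nat.cast_one]
        exact Real.one_le_exp (by positivity)
      exact_mod_cast this
    · exact_mod_cast hM.le
    · linarith
  have hQ : ⌊Real.exp (2 * θ * P)⌋₊ * ⌊Real.exp (θ * P)⌋₊ * qnul f (q1s k R K0) z0 ≤
      ⌊Real.exp (thQ * P)⌋₊ := by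
    apply Nat.le_floor
    push_cast
    have h1 : (⌊Real.exp (2 * θ * P)⌋₊ : ℝ) ≤ Real.exp (2 * θ * P) :=
      Nat.floor_le (Real.exp_pos _).le
    have h2 : (⌊Real.exp (θ * P)⌋₊ : ℝ) ≤ Real.exp (θ * P) := Nat.floor_le (Real.exp_pos _).le
    have h3 : (qnul f (q1s k R K0) z0 : ℝ) ≤ Real.exp (thQ / 16 * P) := by
      refine le_trans (Nat.cast_le.2 hq0le) ?_
      rw [← Real.log_le_iff_le_exp (by linarith)]
      exact N.c4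
    calc (⌊Real.exp (2 * θ * P)⌋₊ : ℝ) * (⌊Real.exp (θ * P)⌋₊ : ℝ) * (qnul f (q1s k R K0) z0 : ℝ)
        ≤ Real.exp (2 * θ * P) * Real.exp (θ * P) * Real.exp (thQ / 16 * P) := by
          gcongr
      _ = Real.exp (2 * θ * P + θ * P + thQ / 16 * P) := by rw [Real.exp_add, Real.exp_add]
      _ ≤ Real.exp (thQ * P) := Real.exp_le_exp.2 (by nlinarith)
  have hq1e : (q1s k R K0 : ℝ) ≤ Real.exp (κ0 * P) := by
    refine le_trans (Nat.cast_le.2 hq1le) ?_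
    rw [← Real.log_le_iff_le_exp (by linarith)]
    exact N.q1
  rw [← hPPe] at hdn
  refine lowat_ofP (GWf C1) hT hz0 hq1e ?_ ?_ hH (cell_cl (s := f.eval (z0 : ℤ)))
    (Hw := Hw) (h0 := h0) (z := 0) h8 h16 hh0
    hh le_rfl (by omega) ?_ ?_ K hK ⌊Real.exp (θ * P)⌋₊ ⌊Real.exp (2 * θ * P)⌋₊
    (fun B hBc => Nat.le_floor (prod_num hg hP1 hlg hθ0 B hBc)) hQ
    (P ^ (g / 8)) ((⌊Real.exp (θ * P)⌋₊ : ℝ) ^ (-c)) (Real.one_le_rpow hP1 (by positivity))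
    (by positivity) hkw1 hkwδ L0 ?_ ?_ ?_ ?_ ?_
  · -- disjoint
    rw [Finset.disjoint_left]
    intro p hp hpP
    exact (hPPm p hpP).2 hp
  · -- GW
    intro a q
    unfold GWf
    rw [← fer_eq_comp, hPPe]
  · -- window 1
    intro n hn
    unfold cell at hn
    rw [mem_filter, mem_Ioc] at hn
    push_cast at hn
    omega
  · intro n hn
    unfold cell at hn
    rw [mem_filter, mem_Ioc] at hn
    omega
  · -- the local sum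
    have h1 : 2 * L0 = Real.exp (-(ε * P)) * (m1 * m2) := by
      rw [hL0]
      ring
    rw [h1, hPPe]
    exact hlow
  · exact err_num hP0.le hQ01 hκ5 hε2 hc3 (by linarith) (by positivity) hL0l
  · exact low_num hP0.le hQ01 hε1 hc2 (by exact_mod_cast hq0pos) hdn hL0l
  · exact sq_num hNr0 hP0.le hκ0.le hκ3 (by have := N.bs; linarith) N.c1
  · exact sq_num hNr0 hP0.le hκ0.le hκ3 (by have := N.bs; linarith) N.c1

/-- change of the complete sums -/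
theorem lowat_congr {C1f : ℕ → ℝ} {k : ℕ} {κ0 thQ P : ℝ} {f : ℤ[X]} {N' : ℕ} {G : ℤ → ℝ}
    (hfk : f.natDegree = k) (h : LOWat (GWf (C1f k)) κ0 thQ P f N' G) :
    LOWat (GWk C1f) κ0 thQ P f N' G := by
  obtain ⟨q0, z0, H, h0, z, G1, G2, a1, a2, a3, a4, a5, a6, a7, a8, a9, a10, a11, a12, a13, a14,
    a15, a16⟩ := h
  refine ⟨q0, z0, H, h0, z, G1, G2, a1, a2, a3, a4, a5, a6, a7, a8, a9, a10, a11, a12, a13, a14,
    a15, ?_⟩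
  have h4 : GWk C1f (f.comp (C (z0 : ℤ) + C (q0 : ℤ) * X)) P =
      GWf (C1f k) (f.comp (C (z0 : ℤ) + C (q0 : ℤ) * X)) P := by
    funext a q
    unfold GWk GWf
    rw [← fer_eq_comp, fer_natDegree f _ a1, hfk]
  rw [h4]
  exact a16

/-- **the integer side of the power version**: the lower bound of the cross form at every state
from the masses of the cells and the lower bound of the local sum -/
theorem lowerF_of {K0f Q0f : ℕ → ℕ → ℝ → ℕ} {C1f : ℕ → ℝ} (hC1f : ∀ k, 2 ≤ C1f k) {St : StTy}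
    (hK0f : ∀ k R : ℕ, 2 ≤ k → 1 ≤ R → ∀ K00 : ℕ, ∃ κs : ℝ, 0 < κs ∧ ∀ κ : ℝ, 0 < κ → κ ≤ κs →
      K00 ≤ K0f k R κ)
    (hQ0f : ∀ (k R : ℕ) (κ : ℝ), Q0s k R (K0f k R κ) ≤ Q0f k R κ)
    (hcell : CELLS K0f Q0f St) (hloc : HLOC K0f C1f St) : LOWERF (GWk C1f) St := by
  classical
  intro k R hk hR thQ κ0 hthQ hthQ16 hκ0
  obtain ⟨C1, hC1e⟩ : ∃ x : ℝ, x = C1f k := ⟨_, rfl⟩
  have hC1 : 2 ≤ C1 := by
    rw [hC1e]
    exact hC1f k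
  obtain ⟨c, K00, kap, hc0, hc4, hk2, hRK, hkap0, hkap1, hG⟩ := seamG k R hk hR
  obtain ⟨g, θ, κs1, hg0, hg2, hθ0, hθ1, hκs1, hL⟩ := hloc k R hk hR thQ hthQ hthQ16
  obtain ⟨κs2, hκs2, hCe⟩ := hcell k R hk hR
  obtain ⟨κs3, hκs3, hK0'⟩ := hK0f k R hk hR K00
  obtain ⟨β, hβ⟩ : ∃ x : ℝ, x = min (g * θ / 16) (c * θ / 2) := ⟨_, rfl⟩
  have hβ0 : 0 < β := by
    rw [hβ]
    exact lt_min (by positivity) (by positivity)
  obtain ⟨κ, hκe⟩ : ∃ x : ℝ, x = min (min (min κs1 κs2) κs3) (min (min (κ0 / 8) (1 / 8)) (β / 8)) := ⟨_, rfl⟩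
  have hκ : 0 < κ := by
    rw [hκe]
    exact lt_min (lt_min (lt_min hκs1 hκs2) hκs3)
      (lt_min (lt_min (by positivity) (by norm_num)) (by positivity))
  have hκ1 : κ ≤ κs1 := by
    rw [hκe]; exact (min_le_left _ _).trans ((min_le_left _ _).trans (min_le_left _ _))
  have hκ2 : κ ≤ κs2 := by
    rw [hκe]; exact (min_le_left _ _).trans ((min_le_left _ _).trans (min_le_right _ _))
  have hκ6 : κ ≤ κs3 := by rw [hκe]; exact (min_le_left _ _).trans (min_le_right _ _)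
  have hK0 := hK0' κ hκ hκ6
  have hκ3 : κ ≤ κ0 / 8 := by
    rw [hκe]; exact (min_le_right _ _).trans ((min_le_left _ _).trans (min_le_left _ _))
  have hκ4 : κ ≤ 1 / 8 := by
    rw [hκe]; exact (min_le_right _ _).trans ((min_le_left _ _).trans (min_le_right _ _))
  have hκ5 : κ ≤ β / 8 := by rw [hκe]; exact (min_le_right _ _).trans (min_le_right _ _)
  obtain ⟨ε, hεe⟩ : ∃ x : ℝ, x = min (κ0 / 4) (β / 4) := ⟨_, rfl⟩
  have hε : 0 < ε := by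
    rw [hεe]
    exact lt_min (by positivity) (by positivity)
  have hε1 : ε ≤ κ0 / 4 := by rw [hεe]; exact min_le_left _ _
  have hε2 : ε ≤ β / 4 := by rw [hεe]; exact min_le_right _ _
  obtain ⟨P1, hL'⟩ := hL κ hκ hκ1 ε hε
  obtain ⟨P2, hCe'⟩ := hCe κ hκ hκ2
  obtain ⟨K0, hK0e⟩ : ∃ x : ℕ, x = K0f k R κ := ⟨_, rfl⟩
  rw [← hK0e, ← hC1e] at hL'
  rw [← hK0e] at hCe' hK0
  have hQ0' := hQ0f k R κ
  obtain ⟨Q0, hQ0⟩ : ∃ x : ℕ, x = Q0f k R κ := ⟨_, rfl⟩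
  rw [← hK0e] at hQ0'
  rw [← hQ0] at hCe' hQ0'
  obtain ⟨P3, hnum⟩ := (numP g θ c κ κ0 ε thQ Q0 k hg0 hg2 hθ0 hc0 hκ0 hthQ).exists_forall_of_atTop
  obtain ⟨P4, hdns⟩ := prod_dns_ge k C1 ε (by linarith) hε
  refine ⟨κ, hκ, by linarith, max (max P1 P2) (max P3 P4), fun P hP f N' G hfk hfl hfR hfc hB hSt => ?_⟩
  have N := hnum P ((le_max_left _ _).trans ((le_max_right _ _).trans hP))
  have hP1 : 1 ≤ P := N.P1
  have hP0 : 0 < P := by linarith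
  have hlg : 0 < Real.log P := by have := N.lg; linarith
  have hTp : ∀ p ∈ Tst K0, p.Prime := fun p hp => (mem_Tst.1 hp).1
  have hTle : ∀ p ∈ Tst K0, p ≤ K0 := fun p hp => (mem_Tst.1 hp).2
  obtain ⟨z0, hz0lt, hz0⟩ := exists_z0 f R hR (by omega) hfR (Tst K0) hTp
  rw [hfk] at hz0lt hz0
  have hT : TinyD f (Tst K0) (Vp k R) (q1s k R K0) (z0 : ℤ) := ⟨hTp, rfl, hz0⟩
  have hq0pos : 1 ≤ q0s k R K0 f z0 := qnul_pos (z0 : ℤ) hT.q1_pos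
  have hq0le : q0s k R K0 f z0 ≤ Q0 := (H758.qnul_le hR hT hTle).trans hQ0'
  have hq0p : ∀ p : ℕ, p.Prime → p ∣ q0s k R K0 f z0 → p ≤ K0 := fun p hp hd =>
    hTle p (hT.mem_of_dvd_qnul hp hd)
  have : NeZero (q0s k R K0 f z0) := ⟨by omega⟩
  -- the windows
  have hlo : Real.exp (P / 2) ≤ N' := by
    refine le_trans (Real.exp_le_exp.2 ?_) hB.lo
    nlinarith
  have hN64 : 6400 ≤ N' := by
    have h1 : (6400 : ℝ) ≤ N' := by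
      refine le_trans ?_ hlo
      rw [← Real.log_le_iff_le_exp (by norm_num)]
      exact N.c5
    exact_mod_cast h1
  obtain ⟨h0, hh0⟩ : ∃ x : ℕ, x = N' / 64 := ⟨_, rfl⟩
  obtain ⟨Hw, hHw⟩ : ∃ x : ℕ, x = N' / 16 + 1 := ⟨_, rfl⟩
  have hh0N : N' ≤ 100 * h0 := by omega
  obtain ⟨w, hw1, hw2⟩ := two_cells (q := q0s k R K0 f z0) (g := G) (N' := N') (h0 := h0)
    (ε := 1 / 8000) hB.sum
    (fun z V hz hzV hV w => hCe' P ((le_max_right _ _).trans ((le_max_left _ _).trans hP)) f N' G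
      hfk hfl hB hSt _ hq0pos hq0le hq0p z V hz hzV (by omega) w)
    (by norm_num) (by norm_num) (by omega) ((3 * Hw + h0 : ℕ) : ℤ) 0 (by omega) (by omega)
    (Or.inr (by omega)) (Or.inr (by omega)) le_rfl (by omega) (Or.inl rfl) (Or.inr (by omega))
    (f.eval (z0 : ℤ))
  obtain ⟨e, e', b, b', K, hb0, hb0', hper, hper', he, he', hbs, hK, hlow⟩ :=
    hL' P ((le_max_left _ _).trans ((le_max_left _ _).trans hP)) f N' G hfk hfl hfR hfc hB hSt z0 hT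
      h0 ((3 * Hw + h0 : ℕ) : ℤ) 0 w (by omega) (by omega) le_rfl (by omega) hh0N hw1 hw2
  obtain ⟨PP, hPPe⟩ : ∃ x : Finset ℕ, x = PPf C1 (fer f (q1s k R K0) z0) P := ⟨_, rfl⟩
  have hPPm : ∀ p ∈ PP, p.Prime ∧ p ∉ Tst K0 := by
    intro p hp
    rw [hPPe] at hp
    obtain ⟨a1, a2, a3, a4⟩ := mem_PPf.1 hp
    exact ⟨a1, hT.notMem_of_nonconst a3⟩
  obtain ⟨hNS, hnT, hGam, hkw, hρ⟩ := hG f hfk hfl hfR (Tst K0) PP (q1s k R K0) z0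
    (fun p hp hd => hT.mem_of_dvd_q1 hp hd)
    (fun p hp hle => mem_Tst.2 ⟨hp, hle.trans hK0⟩) hPPm
  have hdeg : (fer f (q1s k R K0) (z0 : ℤ)).natDegree = k := by
    rw [fer_natDegree f _ hT.q1_pos, hfk]
  have hdn := (hdns P ((le_max_right _ _).trans ((le_max_right _ _).trans hP))
      (fer f (q1s k R K0) z0) (PPf C1 (fer f (q1s k R K0) z0) P) hdeg
      (fun p hp => mem_PPf.1 hp)).1
  have habs : ∀ n : ℤ, |G n| ≤ Real.exp (κ * P) := fun n => by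
    rw [abs_of_nonneg (hB.G0 n)]
    exact hB.le n
  refine lowat_congr hfk ?_
  rw [← hC1e]
  exact lower_at hc0 hg0 hθ0 hθ1 hthQ hthQ16 hκ0 hβ hκ3 hκ5 hε1 hε2 N hfk hT
    hz0lt.le hq0le hdn hPPe
    (fun a1 a2 a3 a4 a5 a6 _ _ a7 a8 => seamH_of hC1 hg0 hP1 hlg hθ0 hθ1 hthQ
      hthQ16 hkap0 hfk hT hPPe hNS hnT hGam hρ a1 a2 a3 a4 a5 a6 a7 a8 habs hlo) hkw hPPm
    (by omega) (by omega) (by omega) (by omega) (by omega) hh0N w hw1 hw2 e e' b b' K hb0 hb0'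
    hper hper' he he' hbs hK hlow

/-- **the power version from the state, the masses of its cells and the local lower bound** -/
theorem final6_pw {K0f Q0f : ℕ → ℕ → ℝ → ℕ} {C1f : ℕ → ℝ} (hC1f : ∀ k, 2 ≤ C1f k) {St : StTy}
    (hState : STATE6 St)
    (hK0f : ∀ k R : ℕ, 2 ≤ k → 1 ≤ R → ∀ K00 : ℕ, ∃ κs : ℝ, 0 < κs ∧ ∀ κ : ℝ, 0 < κ → κ ≤ κs →
      K00 ≤ K0f k R κ)
    (hQ0f : ∀ (k R : ℕ) (κ : ℝ), Q0s k R (K0f k R κ) ≤ Q0f k R κ)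
    (hcell : CELLS K0f Q0f St) (hloc : HLOC K0f C1f St) : Final6 :=
  finalF_of hState (anu_k C1f fun k => by linarith [hC1f k]) (lowerF_of hC1f hK0f hQ0f hcell hloc)

end Vale.Agent.P042.H739
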