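import Vale.Agent.P042.H452.SeamL

set_option autoImplicit false

/-!
P042: the local lower bound `LOWat` of the frame from the seam, power shape: the whole local sum
(all `m2`) is bounded from below by `2 * L0`, where `L0` may be smaller than the masses.
-/

namespace Vale.Agent.P042.H739

open Polynomial Finset Vale.Agent.P042.SS Vale.Agent.P042.H74 Vale.Agent.P042.H452

variable {ι : Type*} [Fintype ι] [DecidableEq ι]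

/-- **`LOWat` from the pieces, power shape** -/
theorem lowat_ofP (GW : GwTy) {κ0 thQ P : ℝ} {f : ℤ[X]} {N' : ℕ} {G : ℤ → ℝ}
    {T : Finset ℕ} {V : ℕ → ℕ} {q1 z0 : ℕ} {PP : Finset ℕ} {prm : ι → ℕ} {kw : ℕ → ℕ → ℝ}
    {ρ b b' : ι → ℝ} {e e' : ι → ℤ → ℝ} {S1 S2 : Finset ℤ} {A : ℝ} {m0 : ℕ}
    (hT : TinyD f T V q1 (z0 : ℤ)) (hz0 : z0 ≤ q1) (hq1 : (q1 : ℝ) ≤ Real.exp (κ0 * P))
    (hdis : Disjoint T PP)
    (hGW : ∀ (a : ℤ) (q : ℕ), GW (f.comp (C (z0 : ℤ) + C (q1 : ℤ) * X)) P a q =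
      GamW (fer f q1 z0) PP a q)
    (H : SeamH (fer f q1 z0) PP T prm kw ρ b b' e e' S1 S2 G G A N'
      ⌊Real.exp (thQ * P)⌋₊ m0)
    (ht : ∀ n ∈ S1, ∀ m ∈ S2, ((qnul f q1 z0 : ℕ) : ℤ) ∣ (n - m) - f.eval (z0 : ℤ))
    -- windows
    {Hw h0 : ℕ} {z : ℤ} (h8 : 8 * (Hw + h0) ≤ N') (h16 : N' ≤ 16 * Hw) (hh0 : 1 ≤ h0)
    (hh : 2 * h0 ≤ Hw) (hz : 0 ≤ z) (hzN : z + 3 * Hw + 2 * h0 ≤ N')
    (hS1w : ∀ n ∈ S1, z + 3 * Hw + h0 < n ∧ n ≤ z + 3 * Hw + 2 * h0)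
    (hS2w : ∀ n ∈ S2, z < n ∧ n ≤ z + h0)
    -- kernels
    (K : ι → ℤ → ℤ → ℝ)
    (hK : ∀ i, ∀ n ∈ S1, ∀ m ∈ S2,
      1 + K i n m = (1 + e i n) * (1 + kN (fer f q1 z0) (prm i) (n - m)) * (1 + e' i m))
    (M0 Y0 : ℕ) (hY : ∀ B : Finset ι, B.card ≤ m0 → ∏ i ∈ B, prm i ≤ Y0)
    (hQ : Y0 * M0 * qnul f q1 z0 ≤ ⌊Real.exp (thQ * P)⌋₊) (R δ : ℝ) (hR : 1 ≤ R) (hδ0 : 0 ≤ δ)
    (hkw1 : ∀ m2 : ℕ, 1 ≤ m2 → m2 ≤ ⌊Real.exp (thQ * P)⌋₊ → (∀ p ∈ T, ¬ p ∣ m2) →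
      (∀ i, ¬ prm i ∣ m2) → kapProd kw m2 ≤ 1)
    (hkwδ : ∀ m2 : ℕ, 1 ≤ m2 → m2 ≤ ⌊Real.exp (thQ * P)⌋₊ → (∀ p ∈ T, ¬ p ∣ m2) →
      (∀ i, ¬ prm i ∣ m2) → M0 < m2 → kapProd kw m2 ≤ δ)
    -- the local sum, numbers
    (L0 : ℝ)
    (hloc : 2 * L0 ≤ ‖∑ B ∈ low ι m0, ∑ m2 ∈ MM T prm M0, FB (fer f q1 z0) PP S1 S2 G G K B m2‖)
    (herr : 4 * (N' : ℝ) ^ 2 * A ^ 2 *
        (R⁻¹ ^ m0 * Real.exp (R * ∑ i, (ρ i + b i + b' i)) +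
          δ * Real.exp (∑ i, (ρ i + b i + b' i))) ≤ L0)
    (hlow : Real.exp (-(κ0 * P)) * (N' : ℝ) ^ 2 ≤
      (∏ p ∈ PP, dns (fer f q1 z0) p) * ((qnul f q1 z0 : ℝ) * L0))
    (hsq : A ^ 2 * (2 * N' * Real.exp (2 * ∑ i, b i)) ≤ Real.exp (κ0 * P) * N')
    (hsq' : A ^ 2 * (2 * N' * Real.exp (2 * ∑ i, b' i)) ≤ Real.exp (κ0 * P) * N') :
    LOWat GW κ0 thQ P f N' G := by
  classical
  set g := fer f q1 (z0 : ℤ) with hg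
  have hqn1 : 1 ≤ qnul f q1 z0 := qnul_pos z0 hT.q1_pos
  have hT1 : ∀ p ∈ T, ¬ p ∣ 1 := fun p hp h => (hT.prime p hp).one_lt.ne' (Nat.dvd_one.1 h)
  have hi1 : ∀ i, ¬ prm i ∣ 1 := fun i h => (H.prime i).one_lt.ne' (Nat.dvd_one.1 h)
  refine ⟨q1, z0, Hw, h0, z, tw S1 G e m0, tw S2 G e' m0, hT.q1_pos, hq1, hz0, h8, h16, hh0, hh,
    hz, hzN, ?_, ?_, ?_, ?_, ?_, ?_, ?_⟩
  · intro n hn h0
    apply hn
    unfold tw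
    rw [h0]
    simp
  · intro n hn h0
    apply hn
    unfold tw
    rw [h0]
    simp
  · intro n hn
    unfold tw at hn
    split_ifs at hn with h
    · exact hS1w n h
    · exact absurd rfl hn
  · intro n hn
    unfold tw at hn
    split_ifs at hn with h
    · exact hS2w n h
    · exact absurd rfl hn
  · exact (tw_sq prm H.prime H.inj e H.per b H.b0 H.he m0 N' H.hm0 S1 G A H.hw).trans hsq
  · exact (tw_sq prm H.prime H.inj e' H.per' b' H.b0' H.he' m0 N' H.hm0 S2 G A H.hw').trans hsq'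
  -- the lower bound
  have hcross : ∑ q ∈ Icc 1 ⌊Real.exp (thQ * P)⌋₊, ∑ a ∈ (range q).filter (Nat.Coprime q),
      GW (f.comp (C (z0 : ℤ) + C (q1 : ℤ) * X)) P a q *
        (Fs (tw S1 G e m0) N' ((a : ℝ) / q) *
          (starRingEnd ℂ) (Fs (tw S2 G e' m0) N' ((a : ℝ) / q))) =
      ((∏ p ∈ PP, dns g p : ℝ) : ℂ) * crossT g PP S1 S2 G G e e' m0 ⌊Real.exp (thQ * P)⌋₊ := by
    unfold crossT
    rw [mul_sum]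
    refine sum_congr rfl fun q _ => ?_
    rw [mul_sum]
    refine sum_congr rfl fun a _ => ?_
    rw [hGW, GamW_eq_GamN g PP H.hPP, Fs_tw S1 N' H.hS1, Fs_tw S2 N' H.hS2, mul_assoc]
  rw [hcross, norm_mul, Complex.norm_real, Real.norm_eq_abs,
    abs_of_nonneg (prod_nonneg fun p hp => ((H.hPP p hp).2).le)]
  refine hlow.trans (mul_le_mul_of_nonneg_left ?_
    (prod_nonneg fun p hp => ((H.hPP p hp).2).le))
  have hs := seam hT H hdis ht K hK M0 Y0 hY hQ R δ hR hδ0 hkw1 hkwδ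
  set X := crossT g PP S1 S2 G G e e' m0 ⌊Real.exp (thQ * P)⌋₊ with hX
  obtain ⟨Mn, hMn⟩ : ∃ x : ℂ, x = ∑ B ∈ low ι m0, ∑ m2 ∈ MM T prm M0,
    FB g PP S1 S2 G G K B m2 := ⟨_, rfl⟩
  rw [← hMn] at hs hloc
  have hqr : (0 : ℝ) ≤ (qnul f q1 z0 : ℝ) := Nat.cast_nonneg _
  have h5 : ‖(qnul f q1 z0 : ℂ) * Mn‖ = (qnul f q1 z0 : ℝ) * ‖Mn‖ := by
    rw [norm_mul, Complex.norm_natCast]
  have h6 : ‖(qnul f q1 z0 : ℂ) * Mn‖ ≤ ‖X‖ + ‖X - (qnul f q1 z0 : ℂ) * Mn‖ := by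
    have := norm_sub_norm_le ((qnul f q1 z0 : ℂ) * Mn) X
    rw [norm_sub_rev] at this
    linarith
  have h7 : (qnul f q1 z0 : ℝ) * (2 * L0) ≤ (qnul f q1 z0 : ℝ) * ‖Mn‖ :=
    mul_le_mul_of_nonneg_left hloc hqr
  have h8' := mul_le_mul_of_nonneg_left herr hqr
  rw [h5] at h6
  linarith

end Vale.Agent.P042.H739
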